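import Crest.Agent.X212.Hol14.Alg
import Crest.Agent.X212.Tmp64.Ode

/-!
# Row 212, Toeplitz cut: calculus on the square, variation of the transport
-/

set_option autoImplicit false
set_option linter.unusedSectionVars false
noncomputable section
open scoped Manifold ContDiff Topology InnerProductSpace
open Set Function Filter MeasureTheory

namespace Crest.Agent.X212.Hol14
open An Wz78
open Cut54 (mu')

abbrev X2 : Type := ℝ × ℝ
abbrev e1 : X2 := (1, 0)
abbrev e2 : X2 := (0, 1)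

variable {N N' : Type} [NormedAddCommGroup N] [NormedSpace ℝ N] [NormedAddCommGroup N']
  [NormedSpace ℝ N'] {u v y : X2}

/-- smooth functions on the plane -/
abbrev Cd (S : X2 → N) : Prop := ContDiff ℝ ∞ S

/-- directional derivatives -/
def pd (v : X2) (T : X2 → N) (y : X2) : N := fderiv ℝ T y v

section pd
variable {S T : X2 → N}

theorem Cd.df (h : Cd S) (y : X2) : DifferentiableAt ℝ S y := h.differentiable (by simp) y

theorem Cd.pd (h : Cd S) (v : X2) : Cd (pd v S) :=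
  (h.fderiv_right (m := ∞) (by simp)).clm_apply contDiff_const

theorem pd_congr (h : S =ᶠ[𝓝 y] T) : pd v S y = pd v T y := by rw [pd, pd, h.fderiv_eq]

theorem pd_comm (h : ContDiffAt ℝ ∞ S y) : pd u (pd v S) y = pd v (pd u S) y := by
  have d := (h.fderiv_right (m := 1) (by norm_cast)).differentiableAt one_ne_zero
  have e : ∀ u v, pd u (pd v S) y = fderiv ℝ (fderiv ℝ S) y u v := fun u v => by
    rw [pd, show pd v S = fun y => fderiv ℝ S y v from rfl, fderiv_clm_apply d (by fun_prop)]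
    simp
  rw [e, e]
  exact h.isSymmSndFDerivAt (by simp only [minSmoothness_of_isRCLikeNormedField]; norm_cast) u v

theorem pd_line (h : DifferentiableAt ℝ S y) :
    HasDerivAt (fun t : ℝ => S (y + t • v)) (pd v S y) 0 := by
  refine HasFDerivAt.comp_hasDerivAt_of_eq (0 : ℝ) h.hasFDerivAt (f := fun t : ℝ => y + t • v)
    (by simpa using ((hasDerivAt_id (0 : ℝ)).smul_const v).const_add y) (by simp)

theorem pd_e1 {θ s : ℝ} (h : DifferentiableAt ℝ S (θ, s)) :
    HasDerivAt (fun θ => S (θ, s)) (pd e1 S (θ, s)) θ :=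
  h.hasFDerivAt.comp_hasDerivAt θ ((hasDerivAt_id θ).prodMk (hasDerivAt_const θ s))

theorem pd_e2 {θ s : ℝ} (h : DifferentiableAt ℝ S (θ, s)) :
    HasDerivAt (fun s => S (θ, s)) (pd e2 S (θ, s)) s :=
  h.hasFDerivAt.comp_hasDerivAt s ((hasDerivAt_const s θ).prodMk (hasDerivAt_id s))

theorem pd_add (hS : DifferentiableAt ℝ S y) (hT : DifferentiableAt ℝ T y) :
    pd v (fun y => S y + T y) y = pd v S y + pd v T y := by rw [pd, fderiv_fun_add hS hT]; rfl

theorem pd_sub (hS : DifferentiableAt ℝ S y) (hT : DifferentiableAt ℝ T y) :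
    pd v (fun y => S y - T y) y = pd v S y - pd v T y := by rw [pd, fderiv_fun_sub hS hT]; rfl

theorem pd_neg : pd v (fun y => -S y) y = -pd v S y := by rw [pd, fderiv_fun_neg]; rfl

theorem pd_const (c : N) : pd v (fun _ => c) y = 0 := by simp [pd]

theorem pd_clm (L : N →L[ℝ] N') (h : DifferentiableAt ℝ S y) :
    pd v (fun y => L (S y)) y = L (pd v S y) :=
  congrArg (fun T : X2 →L[ℝ] N' => T v) (L.hasFDerivAt.comp y h.hasFDerivAt).fderiv

theorem pd_smul {f : X2 → ℝ} (hf : DifferentiableAt ℝ f y) (h : DifferentiableAt ℝ S y) :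
    pd v (fun y => f y • S y) y = pd v f y • S y + f y • pd v S y := by
  rw [pd, fderiv_fun_smul hf h, add_comm]; rfl

theorem pd_sum {α : Type} [Fintype α] {S : α → X2 → N} (h : ∀ a, DifferentiableAt ℝ (S a) y) :
    pd v (fun y => ∑ a, S a y) y = ∑ a, pd v (S a) y := by
  rw [pd, fderiv_fun_sum fun a _ => h a, sum_apply]; rfl

/-- **Green's formula** on the cylinder with collapsed ends -/
theorem green [CompleteSpace N] (hS : Cd S) (hT : Cd T) (h0 : ∀ θ, S (θ, 0) = 0)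
    (h1 : ∀ θ, S (θ, 1) = 0) (hp : ∀ s, T (1, s) = T (0, s)) :
    ∫ θ in (0 : ℝ)..1, ∫ s in (0 : ℝ)..1, (pd e1 T (θ, s) - pd e2 S (θ, s)) = 0 := by
  have := integral2_divergence_prod_of_hasFDerivAt T (fun y => -S y) (fderiv ℝ T)
    (fun y => -fderiv ℝ S y) 0 0 1 1 hT.continuous.continuousOn hS.continuous.neg.continuousOn
    (fun y _ => (hT.df y).hasFDerivAt) (fun y _ => (hS.df y).hasFDerivAt.neg)
    (((hT.pd e1).continuous.add (hS.pd e2).continuous.neg).continuousOn.integrableOn_compact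
      (isCompact_uIcc.prod isCompact_uIcc))
  simpa [h0, h1, hp, pd, sub_eq_add_neg] using this

end pd

variable {κ : Type} [Fintype κ] [DecidableEq κ] {A B P S T π ξ : X2 → En κ}

theorem pd_mul (hS : DifferentiableAt ℝ S y) (hT : DifferentiableAt ℝ T y) :
    pd v (fun y => S y * T y) y = pd v S y * T y + S y * pd v T y := by
  rw [pd, fderiv_fun_mul' hS hT, add_comm]; rfl

theorem Cd.trn (h : Cd S) : Cd fun y => trn (S y) :=
  (Eqv71.trnL : CL (En κ) (En κ)).contDiff.comp h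

theorem pd_trn (h : DifferentiableAt ℝ S y) : pd v (fun y => trn (S y)) y = trn (pd v S y) :=
  pd_clm (Eqv71.trnL : CL (En κ) (En κ)) h

/-- covariant derivative -/
def cv (v : X2) (A T : X2 → En κ) (y : X2) : En κ := pd v T y + (A y * T y - T y * A y)

/-- curvature -/
def cu (A B : X2 → En κ) (y : X2) : En κ := pd e1 B y - pd e2 A y + (A y * B y - B y * A y)

theorem Cd.cv (hA : Cd A) (hT : Cd T) (v : X2) : Cd (cv v A T) :=
  (hT.pd v).add ((hA.mul hT).sub (hT.mul hA))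

theorem Cd.cu (hA : Cd A) (hB : Cd B) : Cd (cu A B) :=
  ((hB.pd _).sub (hA.pd _)).add ((hA.mul hB).sub (hB.mul hA))

theorem cv_mul (hS : Cd S) (hT : Cd T) :
    cv v A (fun y => S y * T y) y = cv v A S y * T y + S y * cv v A T y := by
  simp only [cv, pd_mul (hS.df y) (hT.df y)]; noncomm_ring

theorem cv_comm (hA : Cd A) (hB : Cd B) (hT : Cd T) :
    cv e1 A (cv e2 B T) y - cv e2 B (cv e1 A T) y = cu A B y * T y - T y * cu A B y := by
  have e : ∀ {u v : X2} {A : X2 → En κ}, Cd A → pd u (cv v A T) y = pd u (pd v T) y +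
      (pd u A y * T y + A y * pd u T y - (pd u T y * A y + T y * pd u A y)) := fun hA => by
    rw [← pd_mul (hA.df y) (hT.df y), ← pd_mul (hT.df y) (hA.df y),
      ← pd_sub (Cd.df (hA.mul hT) y) (Cd.df (hT.mul hA) y),
      ← pd_add ((hT.pd _).df y) (Cd.df ((hA.mul hT).sub (hT.mul hA)) y)]
    rfl
  rw [cv, cv.eq_1 e2 B (cv e1 A T), e hB, e hA, pd_comm (u := e1) hT.contDiffAt]
  simp only [cv, cu]; noncomm_ring

theorem cu_par (hA : Cd A) (hB : Cd B) (hT : Cd T) (h1 : cv e1 A T = 0) (h2 : cv e2 B T = 0) :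
    T y * cu A B y = cu A B y * T y := by
  have := cv_comm (y := y) hA hB hT
  rw [h1, h2] at this
  simp only [cv, Pi.zero_apply, mul_zero, zero_mul, sub_self, add_zero,
    show ∀ v, pd v (0 : X2 → En κ) y = 0 from fun _ => pd_const 0] at this
  exact (sub_eq_zero.1 this.symm).symm

theorem cu_skw (hA : Cd A) (hB : Cd B) (h1 : ∀ y, trn (A y) = -A y) (h2 : ∀ y, trn (B y) = -B y) :
    trn (cu A B y) = -cu A B y := by
  simp only [cu, trn_add, trn_sub, trn_mul, ← pd_trn (hA.df y), ← pd_trn (hB.df y), h1, h2, pd_neg,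
    neg_mul_neg]
  abel

theorem cd_iff {f : X2 → N} : ContMDiff (Cyf70.IC 𝓘(ℝ, ℝ)) 𝓘(ℝ, N) ∞ f ↔ Cd f := by
  rw [Cyf70.IC, ← modelWithCornersSelf_prod, chartedSpaceSelf_prod]; exact contMDiff_iff_contDiff

theorem cd_ode {R : Type} [NormedRing R] [NormedAlgebra ℝ R] [CompleteSpace R] {B P : X2 → R}
    (hB : Cd B) (h0 : ∀ θ, P (θ, 0) = 1)
    (h : ∀ θ s, HasDerivAt (fun s => P (θ, s)) (-(B (θ, s) * P (θ, s))) s) : Cd P :=
  cd_iff.1 (Tmp64.sol_smooth (I := 𝓘(ℝ, ℝ)) (t0 := 0) (g := P)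
    (A := fun y => -(ContinuousLinearMap.mul ℝ R (B y)))
    (cd_iff.2 ((ContinuousLinearMap.mul ℝ R).contDiff.comp hB).neg)
    (by simp only [h0]; exact contMDiff_const) h)

theorem cd_trp (hB : Cd B) (h : ∀ θ, Tr (fun s => B (θ, s)) fun s => P (θ, s)) : Cd P :=
  cd_ode hB (fun θ => (h θ).h0) fun θ => (h θ).d

variable (hA : Cd A) (hB : Cd B) (h : ∀ θ, Tr (fun s => B (θ, s)) fun s => P (θ, s))
  (h0 : ∀ θ, A (θ, 0) = 0) (h1 : ∀ θ, A (θ, 1) = 0)
include hA hB h h0 h1

/-- **Variation of the transport** -/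
theorem var (θ : ℝ) : HasDerivAt (fun θ => P (θ, 1))
    (-(P (θ, 1) * ∫ s in (0 : ℝ)..1, trn (P (θ, s)) * cu A B (θ, s) * P (θ, s))) θ := by
  have hP := cd_trp hB h
  have e2P : pd e2 P = fun y => -(B y * P y) :=
    funext fun y => (pd_e2 (hP.df y)).unique ((h y.1).d y.2)
  have d : ∀ s, HasDerivAt (fun s => trn (P (θ, s)) * (pd e1 P (θ, s) + A (θ, s) * P (θ, s)))
      (-(trn (P (θ, s)) * cu A B (θ, s) * P (θ, s))) s := fun s => by
    refine ((hasDerivAt_trn ((h θ).d s)).mul ((pd_e2 ((hP.pd e1).df _)).add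
      ((pd_e2 (hA.df _)).mul ((h θ).d s)))).congr_deriv ?_
    rw [← pd_comm hP.contDiffAt, e2P, pd_neg, pd_mul (hB.df _) (hP.df _)]
    simp only [trn_neg, trn_mul, (h θ).sk, cu, Pi.add_apply, Pi.mul_apply]
    noncomm_ring
  have c : Continuous fun s => trn (P (θ, s)) * cu A B (θ, s) * P (θ, s) :=
    ((hP.trn.mul (hA.cu hB)).mul hP).continuous.comp (Continuous.prodMk_right θ)
  have e := intervalIntegral.integral_eq_sub_of_hasDerivAt (a := 0) (b := 1) (fun s _ => d s)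
    (c.neg.intervalIntegrable _ _)
  have z : pd e1 P (θ, 0) = 0 := (pd_e1 (hP.df _)).unique (by
    simp only [fun θ => (h θ).h0]; exact hasDerivAt_const θ _)
  rw [intervalIntegral.integral_neg, h0, h1, z] at e
  refine (pd_e1 (hP.df _)).congr_deriv ?_
  rw [← mul_neg, e]
  simp only [zero_mul, add_zero, mul_zero, sub_zero, ← mul_assoc, (h θ).r, one_mul]

/-- **Abelian Stokes** -/
theorem stokes {π₀ ξ₀ : En κ} {f : X2 → ℝ} (hf : Continuous f)
    (hπ : ∀ y, π y * P y = P y * π₀) (hξ : ∀ y, ξ y * P y = P y * ξ₀)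
    (hK : ∀ y, cu A B y * π y = f y • (ξ y * π y)) (hc : π₀ * ξ₀ = ξ₀ * π₀)
    (hs : ξ₀ * (ξ₀ * π₀) = -π₀) (θ : ℝ) {φ : ℝ}
    (hφ : φ = ∫ t in (0 : ℝ)..θ, ∫ s in (0 : ℝ)..1, f (t, s)) :
    trn (P (0, 1)) * P (θ, 1) * π₀ = (Real.cos φ • 1 - Real.sin φ • ξ₀) * π₀ := by
  have hP := cd_trp hB h
  have c : Continuous fun t => ∫ s in (0 : ℝ)..1, f (t, s) :=
    intervalIntegral.continuous_parametric_intervalIntegral_of_continuous' (f := fun t s => f (t, s))
      hf _ _
  have i : ∀ t, (∫ s in (0 : ℝ)..1, trn (P (t, s)) * cu A B (t, s) * P (t, s)) * π₀ =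
      (∫ s in (0 : ℝ)..1, f (t, s)) • (ξ₀ * π₀) := fun t => by
    refine Eq.trans ?_ (intervalIntegral.integral_smul_const (𝕜 := ℝ) (fun s => f (t, s)) (ξ₀ * π₀))
    refine ((ContinuousLinearMap.mul ℝ (En κ)).flip π₀).intervalIntegral_comp_comm
      ((((hP.trn.mul (hA.cu hB)).mul hP).continuous.comp
        (Continuous.prodMk_right t)).intervalIntegrable 0 1) |>.symm.trans ?_
    refine intervalIntegral.integral_congr fun s _ => ?_
    change trn (P (t, s)) * cu A B (t, s) * P (t, s) * π₀ = _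
    rw [mul_assoc, ← hπ, mul_assoc, ← mul_assoc (cu _ _ _), hK, smul_mul_assoc, mul_smul_comm,
      mul_assoc, hπ, mu' (hξ _), mul_assoc, mu' ((h t).l s), one_mul]
  let Φ : ℝ → ℝ := fun θ => ∫ t in (0 : ℝ)..θ, ∫ s in (0 : ℝ)..1, f (t, s)
  have d : ∀ t, HasDerivAt (fun t => P (t, 1) * (Real.cos (Φ t) • π₀ + Real.sin (Φ t) • (π₀ * ξ₀)))
      0 t := fun t => by
    have dΦ : HasDerivAt Φ _ t := (c.integral_hasStrictDerivAt 0 t).hasDerivAt
    refine ((var hA hB h h0 h1 t).mul ((dΦ.cos.smul_const π₀).add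
      (dΦ.sin.smul_const (π₀ * ξ₀)))).congr_deriv ?_
    have i1 := i t
    generalize (∫ s in (0 : ℝ)..1, trn (P (t, s)) * cu A B (t, s) * P (t, s)) = Z at i1 ⊢
    have i2 : Z * (π₀ * ξ₀) = -(∫ s in (0 : ℝ)..1, f (t, s)) • π₀ := by
      rw [← mul_assoc, i1, smul_mul_assoc, mul_assoc, hc, hs, smul_neg, neg_smul]
    simp only [Pi.add_apply, neg_mul, mul_add, mul_smul_comm, mul_assoc, i1, i2]
    simp only [hc]
    module
  have e := Tmp64.const_of_deriv d θ 0
  simp only [Φ, ← hφ, intervalIntegral.integral_same, Real.cos_zero, Real.sin_zero, one_smul,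
    zero_smul, add_zero] at e
  have e' : π₀ = (Real.cos φ • π₀ + Real.sin φ • (π₀ * ξ₀)) * (Real.cos φ • 1 - Real.sin φ • ξ₀) := by
    simp only [mul_sub, add_mul, smul_mul_assoc, mul_smul_comm, mul_one, mul_assoc, hc, hs]
    match_scalars
    · linear_combination -Real.cos_sq_add_sin_sq φ
    · ring
  rw [mul_assoc, e', mu' e, mul_assoc, mu' ((h 0).l 1), ← e']
  simp only [mul_sub, sub_mul, smul_mul_assoc, mul_smul_comm, mul_one, one_mul, hc]

end Crest.Agent.X212.Hol14
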