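import Crest.Agent.X212.Hol14.Pb
import Crest.Agent.X212.Abel74.Iso
import Crest.Agent.X212.Abel74.Form

/-!
# Row 212, Toeplitz cut: the symbol of flat and of abelian connections
-/

set_option autoImplicit false
set_option linter.unusedSectionVars false
noncomputable section
open scoped Manifold ContDiff Topology InnerProductSpace
open Set Function Filter Finset

namespace Crest.Agent.X212.Hol14
open An Wz78 Crest.Agent.R208 Crest.Agent.R208.F
open Fred93 (Fr)
open Cut54 (mu')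
open Csm97 (pa pa1 Dat)
open Abel74 (RedOn fF fm hf)

section lin
variable {κ : Type} [Fintype κ] [DecidableEq κ] {J A p p' q q' η : En κ}

theorem pa_comm (hp : Commute η p) (hq : Commute η q) (h1 : Commute η (p' + (A * p - p * A)))
    (h2 : Commute η (q' + (A * q - q * A))) :
    pa A p p' q q' * η - η * pa A p p' q q' = A * η - η * A := by
  have c := ((hp.smul_right (2 : ℝ)).sub_right (Commute.one_right _)).mul_right h1
  rw [pa, pa1]
  generalize ((2 : ℝ) • p - 1) * (p' + (A * p - p * A)) = R at c ⊢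
  have c' := (hq.mul_right (h2.add_right ((c.mul_right hq).sub_right (hq.mul_right c)))).smul_right
    (1 / 2 : ℝ)
  rw [show q' + ((A + R) * q - q * (A + R)) = q' + (A * q - q * A) + (R * q - q * R) by
    noncomm_ring, sub_mul, add_mul, mul_sub, mul_add η, c.eq, c'.eq]
  abel

theorem cos_eq_one {φ : ℝ} (h0 : p ≠ 0) (hs : η * (η * p) = -p)
    (h : p = (Real.cos φ • 1 - Real.sin φ • η) * p) : Real.cos φ = 1 := by
  have h' := congrArg (η * ·) h
  simp only [sub_mul, mul_sub, smul_mul_assoc, mul_smul_comm, one_mul, hs] at h h'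
  have : ((1 - Real.cos φ) ^ 2 + Real.sin φ ^ 2) • p = 0 := by
    linear_combination (norm := module) (1 - Real.cos φ) • h - Real.sin φ • h'
  nlinarith [(smul_eq_zero.1 this).resolve_right h0, sq_nonneg (Real.sin φ),
    sq_nonneg (1 - Real.cos φ)]

/-- the index of a scalar symbol from a lift of the phase -/
theorem fr_lift (h : CP J p) {φ : ℝ → ℝ} (hc : Continuous φ) {n : ℤ}
    (h1 : φ 1 = φ 0 + n * (2 * Real.pi)) {g : Sy κ}
    (hg : ∀ t : ℝ, g t * p = (Real.cos (φ t) • 1 + Real.sin (φ t) • J) * p) :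
    Fr (tpzL J p g) (-n * rk p) := by
  refine fr_wind h n ⟨AddCircle.liftIco 1 0 fun t => φ t - n * (2 * Real.pi) * t,
    AddCircle.liftIco_zero_continuous (by rw [h1]; ring) (by fun_prop)⟩ fun θ => ?_
  obtain ⟨t, ht, rfl⟩ := AddCircle.eq_coe_Ico θ
  rw [hg, fourier_coe_apply, exS, ContinuousMap.coe_mk, ContinuousMap.coe_mk,
    AddCircle.liftIco_zero_coe_apply ht, ← Complex.exp_add,
    show _ + _ = (φ t : ℂ) * Complex.I by push_cast; ring, csE, Complex.exp_ofReal_mul_I_re,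
    Complex.exp_ofReal_mul_I_im]

end lin

variable {E : Type} [NormedAddCommGroup E] [NormedSpace ℝ E] [FiniteDimensional ℝ E]
  [MeasurableSpace E] [BorelSpace E]
  {HM : Type} [TopologicalSpace HM] {I : ModelWithCorners ℝ E HM} [I.Boundaryless]
  {M : Type} [TopologicalSpace M] [ChartedSpace HM M] [IsManifold I ∞ M]
  [MeasurableSpace M] [BorelSpace M] [SecondCountableTopology M] {ι : Type} [Fintype ι]
  {lam : Type} [Fintype lam] {m : Md M ι lam} {B : Base M ι lam} {k : Cut M lam}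
  {F : An.Fr I M ι} {G : Geo I M ι lam} {W : m.Cn} {v y : X2} {θ s : ℝ}
  {N : Type} [NormedAddCommGroup N] [NormedSpace ℝ N]

/-- the paths as a map on the plane -/
abbrev gm (k : Cut M lam) (y : X2) : M := k.γ y.1 y.2

theorem gm_mem (y : X2) : gm k y ∈ k.supp := ⟨(y.1, y.2), rfl⟩

theorem x0_mem : k.x0 ∈ k.supp := ⟨(0, 0), rfl⟩

variable (I k) in
/-- the integral of a two-form over the sphere of the cut -/
def flux (w : M → Ext E) : ℝ := ∫ θ in (0 : ℝ)..1, ∫ s in (0 : ℝ)..1, dns I (gm k) w (θ, s)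

section flux
variable {w w' b : M → Ext E} {O : Set M}

theorem flux_congr (h : EqOn w w' k.supp) : flux I k w = flux I k w' := by
  simp only [flux, dns, h (gm_mem _)]

theorem flux_smul (r : ℝ) : flux I k (r • w) = r * flux I k w := by
  simp only [flux, dns, Pi.smul_apply, Num57.e2_smul, intervalIntegral.integral_const_mul]

theorem flux_neg : flux I k (-w) = -flux I k w := by
  simp only [flux, dns, Pi.neg_apply, Num57.e2_neg, intervalIntegral.integral_neg]

variable (h : Dat I k)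
include h

theorem vf_e2 (a : ι) : vf F (gm k) e2 a (θ, s) = k.vel F θ s a :=
  (vf_line h.sm (c := fun s => (θ, s)) ((hasDerivAt_const s θ).prodMk (hasDerivAt_id s)) a).symm

theorem pb1_end {α : ι → M → N} (hs : s = 0 ∨ s = 1) : pb1 F (gm k) α e1 (θ, s) = 0 := by
  obtain ⟨x, hx⟩ : ∃ x, (fun t : ℝ => gm k (t, s)) = fun _ => x := by
    rcases hs with rfl | rfl
    exacts [⟨_, funext fun t => h.h0 _ _ le_rfl⟩, ⟨_, funext fun t => h.h1 _ _ le_rfl⟩]
  refine sum_eq_zero fun a _ => ?_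
  rw [← vf_line h.sm (c := fun t => (t, s)) ((hasDerivAt_id θ).prodMk (hasDerivAt_const θ s)) a, hx,
    Cnt93.vl, mfderiv_const]
  exact (congrArg (· • _) (map_zero _)).trans (zero_smul ℝ _)

variable (F)
include F

theorem cd_dns (hw : Dr59.Sm I k.supp w) : Cd (dns I (gm k) w) :=
  funext (fun y => dns_eq (F := F) (Γ := gm k) (y := y) w) ▸
    cd_pb2 h.sm fun a c y => Num57.sa_k2 F (hw _ (gm_mem y)) a c

theorem flux_add (hw : Dr59.Sm I k.supp w) (hw' : Dr59.Sm I k.supp w') :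
    flux I k (w + w') = flux I k w + flux I k w' := by
  have c := (cd_dns F h hw).continuous
  have c' := (cd_dns F h hw').continuous
  have i : ∀ {f : X2 → ℝ}, Continuous f → IntervalIntegrable (fun t => ∫ s in (0 : ℝ)..1, f (t, s))
      MeasureTheory.volume 0 1 := fun {f} hf =>
    (intervalIntegral.continuous_parametric_intervalIntegral_of_continuous'
      (f := fun t s => f (t, s)) hf _ _).intervalIntegrable _ _
  rw [flux, flux, flux, ← intervalIntegral.integral_add (i c) (i c')]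
  refine congrArg (intervalIntegral · 0 1 _) (funext fun t => ?_)
  exact (congrArg (intervalIntegral · 0 1 _) (funext fun s => Num57.e2_add _ _ _ _)).trans
    (intervalIntegral.integral_add ((c.comp (Continuous.prodMk_right t)).intervalIntegrable _ _)
    ((c'.comp (Continuous.prodMk_right t)).intervalIntegrable _ _))

/-- **Stokes' theorem on the sphere of the cut** -/
theorem flux_dM (hb : Dr59.Sm I k.supp b) (h1 : ∀ x ∈ k.supp, ∀ᶠ y in 𝓝 x, FI.IsDeg 1 (b y)) :
    flux I k (Dr59.dM I b) = 0 := by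
  have c := fun a y => Num57.sa_k1 F (hb _ (gm_mem y)) a
  rw [← green (cd_pb1 (F := F) h.sm c e1) (cd_pb1 (F := F) h.sm c e2)
    (fun _ => pb1_end h (.inl rfl)) (fun _ => pb1_end h (.inr rfl)) fun s => by
      simp only [pb1, vf_e2 h, AddCircle.coe_period, AddCircle.coe_zero]]
  simp only [flux, dns_eq (F := F), fun y => d_pb1 (y := y) h.sm (c · y) fun a => Num57.k1_P F b a _]
  simp only [pb2, Num57.k2_dM F (hb _ (gm_mem _)) (h1 _ (gm_mem _))]
  rfl

theorem flux_ex (hO : IsOpen O) (hs : k.supp ⊆ O) (hw : Dr59.Ex I O w) (hd : Dr59.Dg 2 O w) :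
    flux I k w = 0 := by
  obtain ⟨b, h1, h2, h3⟩ := hw.deg hd
  rw [← flux_congr fun x hx => h3 x (hs hx)]
  exact flux_dM F h (fun x hx => h1 x (hs hx)) fun x hx => mem_of_superset (hO.mem_nhds (hs hx)) h2

/-- the flux depends only on the class -/
theorem flux_eq (hO : IsOpen O) (hs : k.supp ⊆ O) (hw : Dr59.Cl I 2 O w) (hw' : Dr59.Cl I 2 O w')
    (e : Dr59.Ex I O (w - w')) : flux I k w = flux I k w' := by
  have := flux_add F h (fun x hx => (hw.sub hw').sm x (hs hx)) fun x hx => hw'.sm x (hs hx)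
  rwa [sub_add_cancel, flux_ex F h hO hs e (hw.sub hw').dg, zero_add] at this

end flux

variable (k B F) in
/-- the corrected connection in the direction `v` -/
def Bv (W : m.Cn) (v y : X2) : En (Fin m.N) :=
  pa (pb1 F (gm k) W v y) (k.pi B F m (gm k y)) (pd v (fun y => k.pi B F m (gm k y)) y)
    (k.qu B F m (gm k y)) (pd v (fun y => k.qu B F m (gm k y)) y)

section main
variable (hB : B.OK I) (H : m.OK I B) (hk : k.OK B G.F)
include hB H hk

theorem cd_pi : Cd fun y => k.pi B G.F m (gm k y) :=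
  cd_of hk.sm fun _ => Cnt93.sa_pi hB hk H (hk.om _ _)

theorem cd_qu : Cd fun y => k.qu B G.F m (gm k y) :=
  cd_of hk.sm fun _ => Cnt93.sa_qu hB hk H (hk.om _ _) (hk.q0 m H _ _)

theorem jet (v y : X2) : Jet m.J (k.pi B G.F m (gm k y)) (pd v (fun y => k.pi B G.F m (gm k y)) y)
    (k.qu B G.F m (gm k y)) (pd v (fun y => k.qu B G.F m (gm k y)) y) := by
  simpa only [zero_smul, add_zero] using jet_of (fun t : ℝ => qt_γ hB H hk (y + t • v).1 (y + t • v).2)
    (pd_line ((cd_pi hB H hk).df y)) (pd_line ((cd_qu hB H hk).df y))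

theorem Bv_e2 : Bv B k G.F W e2 (θ, s) = k.A2 B G.F m W θ s := by
  rw [Csm97.A2_eq, Bv, ← (pd_e2 ((cd_pi hB H hk).df _)).deriv, ← (pd_e2 ((cd_qu hB H hk).df _)).deriv]
  simp only [pb1, vf_e2 (Csm97.dat hk)]

theorem Bv_end (hs : s = 0 ∨ s = 1) : Bv B k G.F W e1 (θ, s) = 0 := by
  rw [Bv, pd_comp (F := G.F) hk.sm (Cnt93.sa_pi hB hk H (hk.om _ _)).md,
    pd_comp (F := G.F) hk.sm (Cnt93.sa_qu hB hk H (hk.om _ _) (hk.q0 m H _ _)).md]
  simp only [pb1_end (Csm97.dat hk) hs, pa, pa1, mul_zero, zero_mul, sub_zero, add_zero, smul_zero]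

variable (C : m.IsConn B G W)
include C

omit hB H in
theorem cd_A (v : X2) : Cd (pb1 G.F (gm k) W v) := cd_pb1 hk.sm (fun a _ => C.cc.sm a _) v

theorem cd_Bv (v : X2) : Cd (Bv B k G.F W v) :=
  contDiffOn_univ.1 (Csm97.contDiffOn_pa (cd_A hk C v).contDiffOn (cd_pi hB H hk).contDiffOn
    ((cd_pi hB H hk).pd v).contDiffOn (cd_qu hB H hk).contDiffOn ((cd_qu hB H hk).pd v).contDiffOn)

theorem tr_Bv (θ : ℝ) : Tr (fun s => Bv B k G.F W e2 (θ, s))
    fun s => (fun y : X2 => trp (k.A2 B G.F m W y.1) y.2) (θ, s) := by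
  simpa only [Bv_e2 hB H hk] using tr_A2 hB H hk (cn0_of C) θ

theorem skw_Bv (v y : X2) : trn (Bv B k G.F W v y) = -Bv B k G.F W v y := by
  rw [Bv, (jet hB H hk v y).skw]
  simp only [pb1, map_sum, map_smul, Skw.trn (C.sk _ _), smul_neg, sum_neg_distrib]

omit C in
theorem par_pi (v : X2) : cv v (Bv B k G.F W v) (fun y => k.pi B G.F m (gm k y)) = 0 :=
  funext fun y => by rw [cv, Bv, (jet hB H hk v y).par_p, Pi.zero_apply]

omit C in
theorem par_qu (v : X2) : cv v (Bv B k G.F W v) (fun y => k.qu B G.F m (gm k y)) = 0 :=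
  funext fun y => by rw [cv, Bv, (jet hB H hk v y).par_q, Pi.zero_apply]

theorem par_J (v : X2) : cv v (Bv B k G.F W v) (fun _ => m.J) = 0 := funext fun y => by
  rw [cv, pd_const, Bv, (jet hB H hk v y).J2, sub_self, add_zero, Pi.zero_apply]
  simp only [pb1, sum_mul, mul_sum, smul_mul_assoc, mul_smul_comm, C.J]

theorem cd_pg (η : m.A) : Cd fun y => opL (m.pg (gm k y) η) :=
  cd_of (f := fun x => opL (m.pg x η)) hk.sm fun _ =>
    SA.clm opL (SA.app (Std94.sm_pg hB H _) contMDiffAt_const)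

theorem cv_pg (η : m.A) (v y : X2) : ∃ ζ ∈ m.gS (gm k y),
    cv v (pb1 G.F (gm k) W v) (fun y => opL (m.pg (gm k y) η)) y = opL ζ := by
  have s : SA I (fun x => m.pg x η) (gm k y) := SA.app (Std94.sm_pg hB H _) contMDiffAt_const
  refine ⟨_, Submodule.sum_mem _ fun a (_ : a ∈ Finset.univ) => Submodule.smul_mem _ (vf G.F (gm k) v a y)
    (nab_mem_g H C a s fun x => pg_mem x η), ?_⟩
  rw [cv_comp (T := fun x => opL (m.pg x η)) hk.sm (SA.clm opL s)]
  simp only [pb1, opL_nab _ s, map_sum, map_smul]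

theorem cv_comm_g {S : X2 → En (Fin m.N)} (hS : Cd S)
    (h : ∀ y, ∀ η ∈ m.gS (gm k y), opL η * S y = S y * opL η) {η : m.A} (hη : η ∈ m.gS (gm k y)) :
    Commute (opL η) (cv v (pb1 G.F (gm k) W v) S y) := by
  obtain ⟨ζ, h1, h2⟩ := cv_pg hB H hk C η v y
  have e := cv_mul (v := v) (A := pb1 G.F (gm k) W v) (y := y) (cd_pg hB H hk C η) hS
  rw [funext fun y => h y _ (pg_mem _ η), cv_mul hS (cd_pg hB H hk C η), h2, pg_of_mem hη, h y ζ h1,
    add_comm, add_right_inj] at e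
  exact e.symm

theorem cv_Bv {T : X2 → En (Fin m.N)} (h : ∃ η ∈ m.gS (gm k y), T y = opL η) :
    cv v (Bv B k G.F W v) T y = cv v (pb1 G.F (gm k) W v) T y := by
  obtain ⟨η, hη, e⟩ := h
  rw [cv, cv, e, Bv, pa_comm (g_pi H hη) (g_qu H hη)
    (cv_comm_g hB H hk C (cd_pi hB H hk) (fun _ _ => g_pi H) hη)
    (cv_comm_g hB H hk C (cd_qu hB H hk) (fun _ _ => g_qu H) hη)]

omit hB H hk C in
theorem pbF_mem (y : X2) :
    pb2 G.F (gm k) (fun a b x => m.Fg G.F W x (a, b)) y ∈ m.gS (gm k y) :=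
  Submodule.sum_mem _ fun _ _ => Submodule.sum_mem _ fun _ _ => Submodule.smul_mem _ _ (Fg_mem _ _)

variable (hG : G.OK B)
include hG

theorem cu_comm {η : m.A} (hη : η ∈ m.gS (gm k y)) :
    Commute (cu (Bv B k G.F W e1) (Bv B k G.F W e2) y -
      opL (pb2 G.F (gm k) (fun a b x => m.Fg G.F W x (a, b)) y)) (opL η) := by
  have e := cv_comm (y := y) (cd_Bv hB H hk C e1) (cd_Bv hB H hk C e2) (cd_pg hB H hk C η)
  have e' : ∀ v, cv v (Bv B k G.F W v) (fun y => opL (m.pg (gm k y) η)) = _ := fun v =>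
    funext fun y => cv_Bv hB H hk C ⟨_, pg_mem _ η, rfl⟩
  rw [e', e', cv_Bv hB H hk C (cv_pg hB H hk C η _ y), cv_Bv hB H hk C (cv_pg hB H hk C η _ y),
    cv_comm (cd_A hk C e1) (cd_A hk C e2) (cd_pg hB H hk C η), pg_of_mem hη,
    cu_pb1 hk.sm (fun a => C.cc.sm a _) fun a => by rw [hG.P]; exact C.cc.proj a _] at e
  have c : ∀ a b, _ := fun a b => congrArg opL (curv_adW_g hB hG H C a b hη)
  simp only [curv_adW fun a => C.cc.sm a _, opL_adc] at c
  rw [commute_iff_eq, sub_mul, mul_sub, sub_eq_sub_iff_sub_eq_sub, ← e]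
  simp only [pb2, map_sum, map_smul, sum_mul, mul_sum, smul_mul_assoc, mul_smul_comm,
    ← sum_sub_distrib, ← smul_sub, c]

/-- **On `U` the curvature of the corrected connection is the `g`-part** -/
theorem cu_pi (y : X2) : cu (Bv B k G.F W e1) (Bv B k G.F W e2) y * k.pi B G.F m (gm k y) =
    opL (pb2 G.F (gm k) (fun a b x => m.Fg G.F W x (a, b)) y) * k.pi B G.F m (gm k y) := by
  have g := pbF_mem (k := k) (G := G) (W := W) y
  have c := fun {T} hT => cu_par (y := y) (T := T) (cd_Bv hB H hk C e1) (cd_Bv hB H hk C e2) hT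
  rw [← sub_eq_zero, ← sub_mul]
  refine zero_on_U hB H (hk.om _ _) (hk.q0 m H _ _) (skw_of ?_) ?_ ?_ ?_
    fun η hη => cu_comm hB H hk C hG hη
  · rw [trn_sub, cu_skw (cd_Bv hB H hk C e1) (cd_Bv hB H hk C e2) (skw_Bv hB H hk C _)
      (skw_Bv hB H hk C _), Skw.trn (g_skw g), neg_sub_neg, neg_sub]
  · rw [mul_sub, sub_mul, c contDiff_const (par_J hB H hk C _) (par_J hB H hk C _), g_J g]
  · rw [mul_sub, sub_mul, g_pi H g, c (cd_pi hB H hk) (par_pi hB H hk _) (par_pi hB H hk _)]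
  · rw [mul_sub, sub_mul, g_qu H g, c (cd_qu hB H hk) (par_qu hB H hk _) (par_qu hB H hk _)]

theorem hol_eq {ξ : X2 → En (Fin m.N)} {ξ₀ : En (Fin m.N)} {f : X2 → ℝ} (hf : Continuous f)
    (hξ : ∀ y, ξ y * trp (k.A2 B G.F m W y.1) y.2 = trp (k.A2 B G.F m W y.1) y.2 * ξ₀)
    (hK : ∀ y, opL (pb2 G.F (gm k) (fun a b x => m.Fg G.F W x (a, b)) y) * k.pi B G.F m (gm k y) =
      f y • (ξ y * k.pi B G.F m (gm k y)))
    (hc : k.pi B G.F m k.x0 * ξ₀ = ξ₀ * k.pi B G.F m k.x0)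
    (hs : ξ₀ * (ξ₀ * k.pi B G.F m k.x0) = -k.pi B G.F m k.x0) (θ : ℝ) {φ : ℝ}
    (hφ : φ = ∫ t in (0 : ℝ)..θ, ∫ s in (0 : ℝ)..1, f (t, s)) :
    hol B k G.F W θ * k.pi B G.F m k.x0 = (Real.cos φ • 1 - Real.sin φ • ξ₀) * k.pi B G.F m k.x0 :=
  stokes (P := fun y : X2 => trp (k.A2 B G.F m W y.1) y.2) (cd_Bv hB H hk C e1) (cd_Bv hB H hk C e2)
    (tr_Bv hB H hk C) (fun _ => Bv_end hB H hk (.inl rfl)) (fun _ => Bv_end hB H hk (.inr rfl)) hf
    (fun _ => pi_trp hB H hk (cn0_of C) _ _) hξ (fun y => (cu_pi hB H hk C hG y).trans (hK y)) hc hs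
    θ hφ

section flat
variable (h0 : ∀ x ∈ k.supp, m.Fg G.F W x = 0)
include h0

theorem flat_sym (θ : UnitAddCircle) : k.sym B G.F m W θ = m.pp B k.x0 := by
  obtain ⟨t, rfl⟩ := QuotientAddGroup.mk_surjective θ
  rw [sym_eq, hol_eq hB H hk C hG (ξ := fun _ => m.J) (f := fun _ => 0) continuous_const
    (fun y => J_trp hB H hk (cn0_of C) _ _) (fun y => by simp [pb2, h0 _ (gm_mem y)]) (J_pi H).symm
    (by rw [← mul_assoc, H.Jsq, neg_one_mul]) t (φ := 0) (by simp)]
  simp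

/-- **The Toeplitz operator of a flat connection is the identity** -/
theorem flat_T (ψ : k.H B m) : k.T B G.F m W ψ = ψ :=
  tpzL_p (cp_pp hB H _) (fun θ => by
    rw [cm_sym hB H hk (cn0_of C), flat_sym hB H hk C hG h0, pp_pp hB H]) ψ

theorem flat_ker {σ : CL (k.H B m) (k.H B m)} (hσ : ‖σ‖ < 1) {ψ : k.H B m}
    (h : k.T B G.F m W ψ = σ ψ) : ψ = 0 := by
  rw [flat_T hB H hk C hG h0] at h
  have := σ.le_opNorm ψ
  rw [← h] at this
  exact norm_le_zero_iff.1 (by nlinarith [norm_nonneg ψ])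

end flat

section abel
variable {ξ : M → m.A} (R : RedOn G.F m W k.supp ξ)
include R

omit hB H C hG in
theorem cd_xi : Cd fun y => opL (ξ (gm k y)) :=
  cd_of (f := fun x => opL (ξ x)) hk.sm fun y => SA.clm opL (R.sm _ (gm_mem y))

omit hG in
theorem par_xi (v : X2) : cv v (Bv B k G.F W v) (fun y => opL (ξ (gm k y))) = 0 := funext fun y => by
  have s := R.sm _ (gm_mem y)
  rw [cv_Bv hB H hk C ⟨_, R.mem _ (gm_mem y), rfl⟩,
    cv_comp (T := fun x => opL (ξ x)) hk.sm (SA.clm opL s)]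
  simp [pb1, opL_nab _ s, R.par _ (gm_mem y)]

omit hG in
theorem xi_trp (y : X2) : opL (ξ (gm k y)) * trp (k.A2 B G.F m W y.1) y.2 =
    trp (k.A2 B G.F m W y.1) y.2 * opL (ξ k.x0) := by
  rw [← hk.h0 y.1 0 le_rfl]
  exact (tr_Bv hB H hk C y.1).int (fun s => pd_e2 ((cd_xi hk R).df (y.1, s)))
    (fun s => by simpa only [cv, Pi.zero_apply] using congrFun (par_xi hB H hk C R e2) (y.1, s)) y.2

omit hB H hk R in
theorem dns_fm : dns I (gm k) (fm G.F m W ξ) = pb2 G.F (gm k) (fF G.F m W ξ) := funext fun _ =>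
  (dns_eq _).trans (pb2_congr fun a b => Abel74.k2_fm hG C a b _)

theorem pbF_eq (y : X2) : pb2 G.F (gm k) (fun a b x => m.Fg G.F W x (a, b)) y =
    dns I (gm k) (fm G.F m W ξ) y • ξ (gm k y) := by
  have c := (cu_comm hB H hk C hG (R.mem _ (gm_mem y))).eq
  have e := cu_par (y := y) (cd_Bv hB H hk C e1) (cd_Bv hB H hk C e2) (cd_xi hk R)
    (par_xi hB H hk C R _) (par_xi hB H hk C R _)
  generalize cu (Bv B k G.F W e1) (Bv B k G.F W e2) y = K at c e
  rw [sub_mul, mul_sub, e, sub_right_inj] at c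
  refine (Abel74.eq_of_comm hB H (R.mem _ (gm_mem y)) (R.sq _ (gm_mem y)) (pbF_mem y) c.symm).trans
    (congrArg (· • _) ?_)
  rw [dns_fm C hG]
  simp only [pb2, fF, sum_inner, real_inner_smul_left, sum_div, smul_eq_mul, mul_div_assoc]

theorem cd_fm : Cd (dns I (gm k) (fm G.F m W ξ)) :=
  dns_fm (k := k) (ξ := ξ) C hG ▸ cd_pb2 hk.sm fun a b y => (SA.app (SA.clm (innerSL ℝ)
    (sm_Fg hG C (Std94.sm_pg hB H) (a, b) _)) (R.sm _ (gm_mem y))).div_const 16

omit C hG in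
theorem xi_xi : opL (ξ k.x0) * (opL (ξ k.x0) * k.pi B G.F m k.x0) = -k.pi B G.F m k.x0 := by
  rw [← mul_assoc, R.sq _ x0_mem, neg_mul, Cnt93.p_pi k H]

/-- **The holonomy of an abelian connection** -/
theorem abel_hol (θ : ℝ) {φ : ℝ}
    (hφ : φ = ∫ t in (0 : ℝ)..θ, ∫ s in (0 : ℝ)..1, dns I (gm k) (fm G.F m W ξ) (t, s)) :
    hol B k G.F W θ * k.pi B G.F m k.x0 =
      (Real.cos φ • 1 - Real.sin φ • opL (ξ k.x0)) * k.pi B G.F m k.x0 :=
  hol_eq hB H hk C hG (cd_fm hB H hk C hG R).continuous (xi_trp hB H hk C R)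
    (fun y => by rw [pbF_eq hB H hk C hG R, map_smul, smul_mul_assoc])
    (g_pi H (R.mem _ x0_mem)).symm (xi_xi hB H hk R) θ hφ

/-- **The flux of a reduction is integral** -/
theorem abel_int : ∃ n : ℤ, flux I k (fm G.F m W ξ) = n * (2 * Real.pi) := by
  have e := abel_hol hB H hk C hG R 1 rfl
  rw [AddCircle.coe_period, hol, (tr_A2 hB H hk (cn0_of C) 0).l, one_mul] at e
  obtain ⟨n, hn⟩ := (Real.cos_eq_one_iff _).1 (cos_eq_one (fun h0 => by
    simpa [h0] using tr_pi (x := k.x0) hB H (hk.om 0 0)) (xi_xi hB H hk R) e)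
  exact ⟨n, hn.symm⟩

end abel

end main

variable (k B F) in
/-- the half of `U` on which `η = J` -/
def ph (η : m.A) : En (Fin m.N) := k.pi B F m k.x0 * hf m k.x0 η

section half
variable (hB : B.OK I) (H : m.OK I B) (hk : k.OK B F) {η : m.A} (hη : η ∈ m.gS k.x0)
include hB H hk

theorem ph_add (η : m.A) : ph B k F η + ph B k F (-η) = k.pi B F m k.x0 := by
  rw [ph, ph, ← mul_add, Abel74.hf_add, Cnt93.pi_p k H]

theorem pi_ph (η : m.A) : k.pi B F m k.x0 * ph B k F η = ph B k F η := by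
  rw [ph, ← mul_assoc, (qt_x0 hB H hk).hq.idem]

include hη

omit hB hk in
theorem pi_hf : k.pi B F m k.x0 * hf m k.x0 η = hf m k.x0 η * k.pi B F m k.x0 :=
  Abel74.hf_comm H hη (by rw [Cnt93.pi_p k H, Cnt93.p_pi k H]) (J_pi H).symm (g_pi H hη).symm

variable (hs : opL η * opL η = -m.p k.x0)
include hs

omit hB hk in
theorem xi_ph : opL η * ph B k F η = m.J * ph B k F η := by
  rw [ph, mu' (g_pi H hη), mul_assoc, Abel74.xi_hf H hη hs, mu' (J_pi H), mul_assoc]

theorem sub_ph : Sub m.J (k.pi B F m k.x0) (ph B k F η) := by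
  have Q := (qt_x0 hB H hk).hq
  refine ⟨Q, ⟨Q.toCJ, sym_of ?_, ?_, ?_⟩, pi_ph hB H hk η⟩
  · rw [ph, trn_mul, Sym.trn Q.sym, Sym.trn (Abel74.hf_sym H hη), pi_hf H hη]
  · rw [ph, mul_assoc, mu' (pi_hf H hη).symm, mul_assoc, Abel74.hf_hf H hη hs, mu' Q.idem]
  · rw [ph, mu' Q.comm, mul_assoc, mul_assoc, Abel74.J_hf H hη]

theorem sub_ph' : Sub m.J (m.pp B k.x0) (ph B k F η) :=
  ⟨cp_pp hB H _, (sub_ph hB H hk hη hs).hq, by rw [ph, mu' (qt_x0 hB H hk).pq]⟩

theorem rk_ph : rk (ph B k F η) = 2 := by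
  have Q := qt_x0 hB H hk
  have : trE (k.pi B F m k.x0 * (m.J * opL η)) = 0 := tr_zero (K := k.qu B F m k.x0) (c := -1)
    (by simp) (by simp only [mul_assoc, g_qu H hη, mu' Q.anti, mu' Q.Cq, mu' Q.qC, mul_neg, neg_mul,
      neg_neg]) (by rw [Q.sq, mul_neg, mul_assoc, mul_assoc, g_pi H hη, mu' Q.hq.comm, mul_assoc,
      mu' Q.hq.idem, neg_one_smul])
  refine rk_of (sub_ph hB H hk hη hs).hq.idem ?_
  rw [ph, hf, mul_smul_comm, mul_sub, Cnt93.pi_p k H, map_smul, map_sub, this,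
    show trE (k.pi B F m k.x0) = 4 from tr_pi hB H (hk.om 0 0)]
  norm_num

end half

theorem redOn_neg {O : Set M} {ξ : M → m.A} (R : RedOn F m W O ξ) : RedOn F m W O fun x => -ξ x :=
  ⟨fun x hx => (R.sm x hx).neg, fun x hx => neg_mem (R.mem x hx),
    fun x hx => by rw [map_neg, neg_mul_neg, R.sq x hx],
    fun x hx a => by rw [nab_neg, R.par x hx, neg_zero]⟩

section idx
variable (hB : B.OK I) (H : m.OK I B) (hk : k.OK B G.F) (C : m.IsConn B G W) (hG : G.OK B)
  {ξ : M → m.A} (R : RedOn G.F m W k.supp ξ) {n : ℤ}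
  (hn : flux I k (fm G.F m W ξ) = n * (2 * Real.pi))
include hB H hk C hG R hn

/-- **The index on the half `ξ = J`** -/
theorem fr_ph : Fr (tpzL m.J (ph B k G.F (ξ k.x0)) (cm (k.sym B G.F m W))) (2 * n) := by
  have h1 := R.mem _ x0_mem
  have h2 := R.sq _ x0_mem
  have S := sub_ph hB H hk h1 h2
  have c := intervalIntegral.continuous_parametric_intervalIntegral_of_continuous' (a₀ := 0)
    (b₀ := 1) (μ := MeasureTheory.volume) (f := fun t s => dns I (gm k) (fm G.F m W ξ) (t, s))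
    (cd_fm hB H hk C hG R).continuous
  refine (fr_lift S.hq (n := -n) (φ := fun θ => -∫ t in (0 : ℝ)..θ, ∫ s in (0 : ℝ)..1,
    dns I (gm k) (fm G.F m W ξ) (t, s)) (intervalIntegral.continuous_primitive
    (fun a b => c.intervalIntegrable a b) 0).neg (by
      rw [intervalIntegral.integral_same, ← flux, hn]; simp) fun t => ?_).cast
    (by rw [rk_ph hB H hk h1 h2]; push_cast; ring)
  rw [cm_sym hB H hk (cn0_of C), sym_eq, abel_hol hB H hk C hG R t rfl, add_mul, mul_assoc, S.pq,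
    sub_mul (m.pp B _), S.pq, (sub_ph' hB H hk h1 h2).pq, sub_self, add_zero, Real.cos_neg,
    Real.sin_neg, sub_mul, add_mul, smul_mul_assoc (Real.sin _), xi_ph H h1 h2, neg_smul, neg_mul,
    smul_mul_assoc (Real.sin _), sub_eq_add_neg]

/-- **The index on the half `ξ = -J`** -/
theorem fr_ph' : Fr (tpzL m.J (ph B k G.F (-ξ k.x0)) (cm (k.sym B G.F m W))) (-(2 * n)) :=
  (fr_ph hB H hk C hG (redOn_neg R) (n := -n) (by
    rw [Abel74.fm_neg, flux_neg, hn]; push_cast; ring)).cast (by ring)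

end idx

end Crest.Agent.X212.Hol14
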