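import Crest.Agent.X212.Hol14.Stk
import Crest.Agent.X212.Wrd81.Adj

/-!
# Row 212, Toeplitz cut: density of the terms, splitting along `U` and its halves
-/

set_option autoImplicit false
set_option linter.unusedSectionVars false
noncomputable section
open scoped Manifold ContDiff Topology InnerProductSpace
open Set Function Filter

namespace Crest.Agent.X212.Hol14
open An Wz78 Wrd81
open Fred93 (Fr)
open Cut54 (mu')
open Abel74 (RedOn hf)

section lin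
variable {κ : Type} [Fintype κ] [DecidableEq κ] {J p q Ξ : En κ} {g : Sy κ} {ψ : Hd J p}
  {N : Submodule ℝ (Hd J p)}

theorem cpt_sand {X Y : Type} [NormedAddCommGroup X] [NormedSpace ℝ X] [NormedAddCommGroup Y]
    [NormedSpace ℝ Y] {σ : CL X X} (h : IsCompactOperator σ) (A : CL X Y) (B : CL Y X) :
    IsCompactOperator (A ∘L σ ∘L B) := (h.comp_clm B).clm_comp A

/-- operators which live on the Hardy space of `q` -/
structure On (q : En κ) (σ : CL (Hd J p) (Hd J p)) : Prop where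
  l : ∀ χ, rH J p J p q (σ χ) = σ χ
  r : ∀ χ, σ (rH J p J p q χ) = σ χ

theorem On.smul {σ : CL (Hd J p) (Hd J p)} (h : On q σ) (r : ℝ) : On q (r • σ) :=
  ⟨fun χ => by rw [smul_apply, map_smul, h.l], fun χ => by rw [smul_apply, h.r, smul_apply]⟩

theorem On.add {σ τ : CL (Hd J p) (Hd J p)} (h : On q σ) (h' : On q τ) : On q (σ + τ) :=
  ⟨fun χ => by rw [add_apply, map_add, h.l, h'.l], fun χ => by rw [add_apply, h.r, h'.r, add_apply]⟩

theorem On.sum {α : Type} (s : Finset α) {σ : α → CL (Hd J p) (Hd J p)} (h : ∀ a ∈ s, On q (σ a)) :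
    On q (∑ a ∈ s, σ a) :=
  Finset.sum_induction _ _ (fun _ _ => On.add) ⟨fun _ => map_zero _, fun _ => rfl⟩ h

theorem rH_add (S T : En κ) (ψ : Hd J p) :
    rH J p J p (S + T) ψ = rH J p J p S ψ + rH J p J p T ψ :=
  congrArg (· ψ) (map_add (rHL J p) S T)

theorem rH_sub (S T : En κ) (ψ : Hd J p) :
    rH J p J p (S - T) ψ = rH J p J p S ψ - rH J p J p T ψ :=
  congrArg (· ψ) (map_sub (rHL J p) S T)

namespace Sub
variable (h : Sub J p q)
include h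

theorem fc_rH (n : ℤ) (ψ : Hd J p) : fc J n (rH J p J p q ψ) = q (fc J n ψ) := by
  rw [h.it''.rH_coe, h.it''.fc]

theorem rH_idem (ψ : Hd J p) : rH J p J p q (rH J p J p q ψ) = rH J p J p q ψ := by
  rw [h.it''.rH_rH, show q ∘L q = q from h.hq.idem]

theorem incl_proj (ψ : Hd J p) : rH J q J p q (rH J p J q q ψ) = rH J p J p q ψ := by
  rw [h.it.rH_rH, show q ∘L q = q from h.hq.idem]

theorem exists_fc (hψ : rH J p J p q ψ ≠ 0) : ∃ n : ℕ, q (fc J n ψ) ≠ 0 := by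
  simpa only [h.fc_rH] using exists_fc_ne h.hp hψ

theorem on_frk (m n : ℕ) (Ξ : En κ) : On (J := J) (p := p) q (frk J p m n (q * Ξ * q)) :=
  ⟨fun χ => Subtype.ext (by
      rw [h.it''.rH_coe, frk_coe' h.hp, cL_md h.hq.comm.symm]
      exact congrArg _ ((app h.qp _).trans (app h.hq.idem _) |>.trans (app h.pq _).symm)),
    fun χ => Subtype.ext (by
      rw [frk_coe, frk_coe, h.fc_rH]
      exact congrArg (fun v => PH J p (md J m (q (Ξ v)))) (app h.hq.idem _))⟩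

theorem tpz_off (fix : ∀ θ, g θ * (p - q) = p - q) (ψ : Hd J p) :
    tpzL J p g (ψ - rH J p J p q ψ) = ψ - rH J p J p q ψ := by
  have i := h.hp.it (T := p - q) (by rw [mul_sub, sub_mul, h.hp.comm, h.hq.comm])
    (by rw [mul_sub, sub_mul, h.pq, h.qp])
  rw [show ψ - rH J p J p q ψ = rH J p J p (p - q) ψ by rw [rH_sub, rH_p h.hp h.hp.idem]]
  refine Subtype.ext ?_
  rw [tpzL_coe, i.rH_coe, ← mulC_cS, mulC2 (k := cS (p - q)) fix, mulC_cS, ← i.rH_coe, PH_coe]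

theorem res_tpz (e : ∀ θ, q * g θ = g θ * q) (ψ : Hd J q) :
    rH J p J q q (tpzL J p g (rH J q J p q ψ)) = tpzL J q g ψ := by
  rw [h.it.rH_tpzL e, h.proj_incl]

/-- the index of the restriction of a compact perturbation -/
theorem fr_res (e : ∀ θ, q * g θ = g θ * q) {n : ℤ} (hF : Fr (tpzL J q g) n)
    {σ : CL (Hd J p) (Hd J p)} (hσ : IsCompactOperator σ) :
    Fr (rH J p J q q ∘L (tpzL J p g - σ) ∘L rH J q J p q) n := by
  refine hF.of_sub_compact ?_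
  rw [show _ - _ = -(rH J p J q q ∘L σ ∘L rH J q J p q) from ContinuousLinearMap.ext fun ψ => by
    simp [h.res_tpz e]]
  exact (cpt_sand hσ _ _).neg

theorem mem_of (hN : IsClosed (N : Set (Hd J p))) {X : Set (En κ)} {n : ℕ}
    (hX : ∀ w, (∀ Ξ ∈ X, ⟪Ξ (fc J n ψ), w⟫_ℝ = 0) → q w = 0)
    (hT : ∀ Ξ ∈ X, ∀ m, frk J p m n Ξ ψ ∈ N) (χ : Hd J p) : rH J p J p q χ ∈ N := by
  have := hN.completeSpace_coe
  rw [← N.orthogonal_orthogonal, Submodule.mem_orthogonal]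
  intro ζ hζ
  rw [real_inner_comm, inner_rH, Sym.trn h.hq.sym, show rH J p J p q ζ = 0 from Subtype.ext (by
    rw [h.it''.rH_coe, ← mulC_cS]
    exact eq_zero_of_orth h hX fun Ξ hΞ m => hζ _ (hT Ξ hΞ m)), inner_zero_right]

variable (e : ∀ θ, q * g θ = g θ * q) (fix : ∀ θ, g θ * (p - q) = p - q)
  {σ : CL (Hd J p) (Hd J p)} (hσ : On q σ)
include fix hσ

theorem off (χ : Hd J p) : (tpzL J p g - σ) (χ - rH J p J p q χ) = χ - rH J p J p q χ := by
  rw [sub_apply, h.tpz_off fix, map_sub, hσ.r, sub_self, sub_zero]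

theorem mem_top (hA : ∀ χ, (tpzL J p g - σ) χ ∈ N) (hq : ∀ χ, rH J p J p q χ ∈ N) (χ : Hd J p) :
    χ ∈ N := by
  simpa [h.off fix hσ] using add_mem (hA (χ - rH J p J p q χ)) (hq χ)

include e in
theorem ker_fix (h0 : tpzL J p g ψ = σ ψ) : rH J p J p q ψ = ψ := by
  rw [eq_comm, ← sub_eq_zero, ← h.tpz_off fix, map_sub, ← h.it''.rH_tpzL e, h0, hσ.l, sub_self]

end Sub

/-- a complex line is generated by each of its vectors -/
theorem line_zero (h : CP J q) (h2 : rk q = 2) {v w : Eu κ} (hv : q v ≠ 0)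
    (hw : ∀ c, ⟪(csE J c * q) v, w⟫_ℝ = 0) : q w = 0 := by
  obtain ⟨c, hc⟩ := trans4 (X := ℂ) (by rw [h2, Complex.finrank_real_complex])
    (csL J).toLinearMap (v := q v) (fun c => by
      change (q * csE J c) (q v) = _
      rw [← csE_comm h.comm, mul_apply_eq_comp, h.pp]; rfl) (fun c hc => by_contra fun h0 => hv (by
      have := congrArg (csE J c⁻¹) (show csE J c (q v) = 0 from hc)
      rwa [← mul_apply_eq_comp, ← csE_mul h.sq, inv_mul_cancel₀ h0, csE_one, map_zero] at this))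
    (h.pp w)
  rw [← inner_self_eq_zero (𝕜 := ℝ), h.sym, h.pp, real_inner_comm, ← hc]
  exact hw c

end lin

variable {E : Type} [NormedAddCommGroup E] [NormedSpace ℝ E] [FiniteDimensional ℝ E]
  [MeasurableSpace E] [BorelSpace E]
  {HM : Type} [TopologicalSpace HM] {I : ModelWithCorners ℝ E HM} [I.Boundaryless]
  {M : Type} [TopologicalSpace M] [ChartedSpace HM M] [IsManifold I ∞ M]
  [MeasurableSpace M] [BorelSpace M] [SecondCountableTopology M] {ι : Type} [Fintype ι]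
  {lam : Type} [Fintype lam] {m : Md M ι lam} {B : Base M ι lam} {k : Cut M lam}
  {F : An.Fr I M ι} {G : Geo I M ι lam} {W : m.Cn} {r : ℕ} {c : Cfg M ι lam r} {x : M}

variable (B m k) in
/-- a constant endomorphism of the fibre on the Hardy space of the cut -/
abbrev cH (T : En (Fin m.N)) : CL (k.H B m) (k.H B m) := rH m.J (m.pp B k.x0) m.J (m.pp B k.x0) T

theorem ph_comm (H : m.OK I B) {η : m.A} {T : En (Fin m.N)}
    (hp : k.pi B F m k.x0 * T = T * k.pi B F m k.x0) (hJ : m.J * T = T * m.J)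
    (ht : opL η * T = T * opL η) : ph B k F η * T = T * ph B k F η := by
  rw [ph, hf, mul_smul_comm, mul_sub, Cnt93.pi_p k H]
  exact ((Commute.sub_left hp (Commute.mul_left hp (Commute.mul_left hJ ht))).smul_left _).eq

/-- the endomorphisms with the property `P` span `g` at `x` -/
def Spn (c : Cfg M ι lam r) (F : An.Fr I M ι) (P : Xi M lam r → Prop) (x : M) : Prop := ∀ η ∈ c.m.gS x,
  (∀ ξ, P ξ → ∀ ζ ∈ c.m.gS x, c.xi F ξ x = opL ζ → ⟪η, ζ⟫_ℝ = 0) → η = 0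

section words
variable [T2Space M] {K Ω : Set M} {P : Xi M lam r → Prop}

theorem prj_mem {V : Type} [NormedAddCommGroup V] [InnerProductSpace ℝ V] [FiniteDimensional ℝ V]
    {A : ι → M → V →L[ℝ] V} {𝒲 : Set (M → V)} {π : M → V →L[ℝ] V} (h : Prj K Ω F A 𝒲 π)
    (hS : ∃ S, Sob92.Sup F.toPre S) (hΩ : IsOpen Ω) (hx : x ∈ Ω) {U : Submodule ℝ V}
    (hU : ∀ w ∈ 𝒲, w x ∈ U) (v : V) : π x v ∈ U := by
  obtain ⟨S, hS⟩ := hS
  obtain ⟨f, hf, f1⟩ := exists_tf (I := I) (hΩ.mem_nhds hx)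
  have := FiniteDimensional.complete ℝ V
  have e := (Sob92.ev_spec (p := triv M V) hS le_rfl x).1
  obtain ⟨h1, h2⟩ := mem_Ap.1 (h.ap 4 (fun y => f y • π y v)
    (smul_mem_tst hf.sm hf.hcs (h.sm.clm_apply contMDiff_const))
    ((tsupport_smul_subset_left _ _).trans hf.sub) fun y => by rw [map_smul, h.idem])
  have := map_cl U.closed_of_finiteDimensional (F.ev 4 _ x) (by
    rintro _ ⟨u, ⟨g, -, w, hw, hu⟩, rfl⟩
    rw [e, hu]
    exact U.smul_mem _ (hU w hw)) h2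
  simpa [e, f1] using this

variable (h : Pc c B G K Ω) (hx : x ∈ Ω ∩ K)
include h hx

/-- full holonomy: the adjoint words span `g` at every point -/
theorem spn_full (hF : Full c G K) (hP : ∀ ξ, AwIn I Ω ξ → P (.aw ξ)) : Spn c G.F P x := by
  intro η hη ho
  obtain ⟨σ, p⟩ := h.exists_ap'
  have := prj_mem p.toPrj h.ra.sup h.opn hx (U := (innerSL ℝ η).ker) (by
    rintro _ ⟨_, ⟨t, ht, rfl⟩, l, hl, rfl⟩
    exact ho _ (hP ⟨t, l⟩ ⟨ht, hl⟩) _ (aw_g h.hB h.ok h.conn h.ra ⟨t, l⟩ x) rfl) η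
  rw [hF σ p.sm p.symm p.idem p.g p.nabE (p.fix_Fg h fun _ _ _ k => ⟨_, k, rfl⟩) x hx.2,
    pg_of_mem hη] at this
  exact inner_self_eq_zero.1 this

/-- irreducible pairs: the quadratic words span `g` at every point -/
theorem spn_irr (hΦ : ∀ x ∈ K, ∃ y ∈ connectedComponent x, c.Φ y ≠ 0) {d : Co M lam r}
    (d0 : c.co G.F d ≠ 0) (P1 : ∀ u v, SwIn I Ω u → SwIn I Ω v → P (.aw ⟨.q u v, []⟩))
    (P2 : ∀ s u v, Tv I Ω s → SwIn I Ω u → SwIn I Ω v → P (.qj d s u v [])) : Spn c G.F P x := by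
  intro η hη ho
  obtain ⟨π, p⟩ := h.exists_sp
  have key : ∀ T : En (Fin c.m.N), (∀ u v, SwIn I Ω u → SwIn I Ω v →
      ⟪η, c.m.q x (T (c.sw G.F u x)) (c.sw G.F v x)⟫_ℝ = 0) → ∀ a b,
      ⟪opL η (π x b), T (π x a)⟫_ℝ = 0 := fun T hT a b =>
    prj_mem p.toPrj h.rs.sup h.opn hx (U := (innerSL ℝ (opL η (π x b)) ∘L T).ker) (by
      rintro _ ⟨u, hu, rfl⟩
      refine (real_inner_comm (T (c.sw G.F u x)) (opL η (π x b))).trans (prj_mem p.toPrj h.rs.sup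
        h.opn hx (U := (innerSL ℝ (T (c.sw G.F u x)) ∘L opL η).ker) ?_ b)
      rintro _ ⟨v, hv, rfl⟩
      exact (real_inner_comm (opL η _) (T _)).trans ((inner_q' hη _ _).symm.trans (hT u v hu hv))) a
  obtain ⟨f, hf, f1⟩ := exists_tf (I := I) (h.op.mem_nhds hx.1)
  refine (p.hf x).g_zero h.hB h.ok (p.ne_zero hΦ h.cl x hx.2) hη
    (fun b => ext_inner_left ℝ fun a => ?_) fun s b => ext_inner_left ℝ fun a => ?_
  · rw [← p.symm, real_inner_comm, inner_zero_right]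
    exact key 1 (fun u v hu hv => ho _ (P1 u v hu hv) _ (q_mem _ _) rfl) a b
  · rw [← p.symm, ← h.ok.jsym, real_inner_comm, inner_zero_right]
    refine key (c.m.j x s) (fun u v hu hv => ho _ (P2 _ u v (hf.tv (cs B.il (c.co G.F d)⁻¹ s)) hu hv)
      _ (q_mem _ _) ?_) a b
    simp only [Cfg.xi, wd, List.foldr_nil, Cfg.qj, f1, one_smul, cs_j_inv h.ok d0]

end words

section cut
variable (hB : B.OK I) (H : m.OK I B) (hk : k.OK B F) {N : Submodule ℝ (k.H B m)} {ψ : k.H B m}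
  {σ : CL (k.H B m) (k.H B m)}
include hB H hk

theorem sub_x0 : Sub m.J (m.pp B k.x0) (k.pi B F m k.x0) := (qt_x0 hB H hk).toSub

/-- `H = H₊ ⊕ H₋ ⊕ H₀` -/
theorem split (η : m.A) (ψ : k.H B m) : ψ = cH m B k (ph B k F η) ψ + cH m B k (ph B k F (-η)) ψ +
    (ψ - cH m B k (k.pi B F m k.x0) ψ) := by
  rw [← rH_add, ph_add hB H hk, add_sub_cancel]

theorem den_U (hN : IsClosed (N : Set (k.H B m))) (hψ : cH m B k (k.pi B F m k.x0) ψ ≠ 0)
    {X : Set (En (Fin m.N))} (h1 : 1 ∈ X)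
    (hX : ∀ η ∈ m.gS k.x0, (∀ ζ ∈ m.gS k.x0, opL ζ ∈ X → ⟪η, ζ⟫_ℝ = 0) → η = 0)
    (hT : ∀ Ξ ∈ X, ∀ a b, frk _ _ a b (k.pi B F m k.x0 * csE m.J 1 * Ξ * k.pi B F m k.x0) ψ ∈ N)
    (χ : k.H B m) : cH m B k (k.pi B F m k.x0) χ ∈ N := by
  have S := sub_x0 hB H hk
  obtain ⟨n, hn⟩ := S.exists_fc hψ
  refine S.mem_of hN (n := n) (X := (fun Ξ => k.pi B F m k.x0 * csE m.J 1 * Ξ * k.pi B F m k.x0) '' X)
    (fun w hw => ?_) (by rintro _ ⟨Ξ, h, rfl⟩ a; exact hT Ξ h a n) χ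
  have e : ∀ Ξ ∈ X, ⟪Ξ (k.pi B F m k.x0 (fc m.J n ψ)), k.pi B F m k.x0 w⟫_ℝ = 0 := fun Ξ h => by
    simpa only [csE_one, mul_one, mul_apply_eq_comp, S.hq.sym _ w] using hw _ ⟨Ξ, h, rfl⟩
  obtain ⟨r, ξ, hξ, hr⟩ := exists_g (x := k.x0) hB H (hk.om 0 0) (S.hq.pp _) hn (S.hq.pp w)
  have := hX _ (q_mem _ _) fun ζ hζ h => by rw [real_inner_comm, inner_q' hζ, e _ h]
  rw [← inner_self_eq_zero (𝕜 := ℝ)]
  nth_rewrite 1 [hr]
  rw [inner_add_left, real_inner_smul_left, ← inner_q' hξ, this, inner_zero_right, add_zero]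
  exact mul_eq_zero_of_right _ (e 1 h1)

theorem den_ph (hN : IsClosed (N : Set (k.H B m))) {η : m.A} (hη : η ∈ m.gS k.x0)
    (hs : opL η * opL η = -m.p k.x0) (hψ : cH m B k (ph B k F η) ψ ≠ 0)
    (h1 : ∀ a b w, frk _ _ a b (k.pi B F m k.x0 * csE m.J w * 1 * k.pi B F m k.x0) ψ ∈ N)
    (h2 : ∀ a b w, frk _ _ a b (k.pi B F m k.x0 * csE m.J w * opL η * k.pi B F m k.x0) ψ ∈ N)
    (χ : k.H B m) : cH m B k (ph B k F η) χ ∈ N := by
  have S := sub_ph' hB H hk hη hs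
  have Q := (sub_x0 hB H hk).hq
  obtain ⟨n, hn⟩ := S.exists_fc hψ
  refine S.mem_of hN (n := n) (X := range fun w => csE m.J w * ph B k F η)
    (fun w hw => line_zero S.hq (rk_ph hB H hk hη hs) hn fun c => hw _ ⟨c, rfl⟩) ?_ χ
  rintro _ ⟨w, rfl⟩ a
  have := N.smul_mem (1 / 2) (sub_mem (h1 a n w) (h2 a n (w * Complex.I)))
  rw [← frkL_apply, ← frkL_apply, ← sub_apply, ← smul_apply, ← map_sub, ← map_smul,
    frkL_apply] at this
  convert this using 3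
  simp only [ph, hf, csE_mul H.Jsq, csE_I, mul_smul_comm, mul_sub, mul_assoc, one_mul,
    mu' (csE_comm Q.comm w).symm, Q.idem, Cnt93.pi_p k H, g_pi H hη, mu' Q.comm.symm, mu' Q.idem]

variable (h : Cn0 k W) (hσ : On (k.pi B F m k.x0) σ)
include h hσ

/-- solutions of the row lie in the Hardy space of `U` -/
theorem ker_U (h0 : k.T B F m W ψ = σ ψ) : cH m B k (k.pi B F m k.x0) ψ = ψ :=
  (sub_x0 hB H hk).ker_fix (sp_sym hB H hk h).hq (sp_sym hB H hk h).fix hσ h0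

theorem off_U (χ : k.H B m) : (k.T B F m W - σ) (χ - cH m B k (k.pi B F m k.x0) χ) =
    χ - cH m B k (k.pi B F m k.x0) χ := (sub_x0 hB H hk).off (sp_sym hB H hk h).fix hσ χ

theorem mem_top (hA : ∀ χ, (k.T B F m W - σ) χ ∈ N)
    (hU : ∀ χ, cH m B k (k.pi B F m k.x0) χ ∈ N) (χ : k.H B m) : χ ∈ N :=
  (sub_x0 hB H hk).mem_top (sp_sym hB H hk h).fix hσ hA hU χ

end cut

section cfg
variable (hB : B.OK I) (H : c.m.OK I B) (hk : k.OK B F)
include hB H hk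

theorem on_tc (t : Tc M lam r) : On (k.pi B F c.m k.x0) (c.tc B F k t) := by
  rw [Cfg.tc, mul_assoc (k.pi B F c.m k.x0)]
  exact (sub_x0 hB H hk).on_frk _ _ _

theorem on_wpc {K : Type} [Fintype K] (T : K → Tc M lam r) (w : K → ℝ) :
    On (k.pi B F c.m k.x0) (wpc B F k T w c) := On.sum _ fun _ _ => (on_tc hB H hk _).smul _

/-- **Density for the row of a cut** -/
theorem den_tc (h : Cn0 k c.W) {σ : CL (k.H B c.m) (k.H B c.m)} (hσ : On (k.pi B F c.m k.x0) σ)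
    {ψ : k.H B c.m} (hψ : ψ ≠ 0) (h0 : k.T B F c.m c.W ψ = σ ψ) {P : Xi M lam r → Prop}
    (h1 : P .one) (hP : Spn c F P k.x0) {N : Submodule ℝ (k.H B c.m)}
    (hN : IsClosed (N : Set (k.H B c.m))) (hA : ∀ χ, (k.T B F c.m c.W - σ) χ ∈ N)
    (hT : ∀ a b ξ, P ξ → c.tc B F k ⟨a, b, 1, ξ⟩ ψ ∈ N) (χ : k.H B c.m) : χ ∈ N :=
  mem_top hB H hk h hσ hA (den_U hB H hk hN (by rwa [ker_U hB H hk h hσ h0])
    (X := {T | ∃ ξ, P ξ ∧ c.xi F ξ k.x0 = T}) ⟨_, h1, rfl⟩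
    (fun η hη ho => hP η hη fun ξ hξ ζ hζ e => ho ζ hζ ⟨ξ, hξ, e⟩)
    (by rintro _ ⟨ξ, hξ, rfl⟩ a b; exact hT a b ξ hξ)) χ

/-- terms which commute with `η` preserve the halves -/
theorem ph_tc {η : c.m.A} (hη : η ∈ c.m.gS k.x0) (hs : opL η * opL η = -c.m.p k.x0) (t : Tc M lam r)
    (hJ : c.m.J * c.xi F t.ξ k.x0 = c.xi F t.ξ k.x0 * c.m.J)
    (hp : k.pi B F c.m k.x0 * c.xi F t.ξ k.x0 = c.xi F t.ξ k.x0 * k.pi B F c.m k.x0)
    (ht : opL η * c.xi F t.ξ k.x0 = c.xi F t.ξ k.x0 * opL η) (ψ : k.H B c.m) :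
    cH c.m B k (ph B k F η) (c.tc B F k t ψ) = c.tc B F k t (cH c.m B k (ph B k F η) ψ) := by
  have S := sub_ph hB H hk hη hs
  have e : Commute (ph B k F η) (k.pi B F c.m k.x0) := S.qp.trans S.pq.symm
  refine (sub_ph' hB H hk hη hs).it''.rH_frk (((e.mul_right (csE_comm S.hq.comm _).symm).mul_right
    (ph_comm H hp hJ ht)).mul_right e) _ _ ψ

end cfg

section abel
variable (hB : B.OK I) (H : m.OK I B) (hk : k.OK B G.F) (C : m.IsConn B G W)
  {ξ : M → m.A} (R : RedOn G.F m W k.supp ξ)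
include hB H hk C R

theorem xi_hol (θ : UnitAddCircle) :
    opL (ξ k.x0) * hol B k G.F W θ = hol B k G.F W θ * opL (ξ k.x0) :=
  hol_comm hB H hk (cn0_of C) (T₁ := opL (ξ (k.γ 0 1))) (fun θ => by
    obtain ⟨t, rfl⟩ := QuotientAddGroup.mk_surjective θ
    rw [← hk.h1 t 1 le_rfl]
    exact xi_trp hB H hk C R (t, 1)) θ

theorem ph_sym (θ : UnitAddCircle) :
    ph B k G.F (ξ k.x0) * cm (k.sym B G.F m W) θ = cm (k.sym B G.F m W) θ * ph B k G.F (ξ k.x0) := by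
  have S := sub_ph hB H hk (R.mem _ x0_mem) (R.sq _ x0_mem)
  have S' := sub_ph' hB H hk (R.mem _ x0_mem) (R.sq _ x0_mem)
  rw [cm_sym hB H hk (cn0_of C), sym_eq, mul_add, add_mul, mul_sub, sub_mul, S.pq, S.qp, S'.pq,
    S'.qp, mu' (ph_comm H (pi_hol hB H hk (cn0_of C) θ) (J_hol hB H hk (cn0_of C) θ)
      (xi_hol hB H hk C R θ)), mul_assoc, mul_assoc, S.pq, S.qp]

/-- the Toeplitz operator preserves the halves -/
theorem ph_T (ψ : k.H B m) : cH m B k (ph B k G.F (ξ k.x0)) (k.T B G.F m W ψ) =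
    k.T B G.F m W (cH m B k (ph B k G.F (ξ k.x0)) ψ) :=
  (sub_ph' hB H hk (R.mem _ x0_mem) (R.sq _ x0_mem)).it''.rH_tpzL (ph_sym hB H hk C R) ψ

/-- **The index of the perturbed row on a half** -/
theorem fr_half (hG : G.OK B) {n : ℤ}
    (hn : flux I k (Abel74.fm G.F m W ξ) = n * (2 * Real.pi)) {σ : CL (k.H B m) (k.H B m)}
    (hσ : IsCompactOperator σ) :
    Fr (rH m.J (m.pp B k.x0) m.J (ph B k G.F (ξ k.x0)) (ph B k G.F (ξ k.x0)) ∘L (k.T B G.F m W - σ) ∘L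
      rH m.J (ph B k G.F (ξ k.x0)) m.J (m.pp B k.x0) (ph B k G.F (ξ k.x0))) (2 * n) :=
  (sub_ph' hB H hk (R.mem _ x0_mem) (R.sq _ x0_mem)).fr_res (ph_sym hB H hk C R)
    (fr_ph hB H hk C hG R hn) hσ

end abel

end Crest.Agent.X212.Hol14
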