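import Crest.Agent.X212.Hol14.Pt
import Crest.Agent.X212.Csm97.Cut
import Crest.Agent.X212.Wrd81.Gau

/-!
# Row 212, Toeplitz cut: the symbol takes values in `Sp(1)`; index zero
-/

set_option autoImplicit false
set_option linter.unusedSectionVars false
noncomputable section
open scoped Manifold ContDiff Topology InnerProductSpace
open Set Function Module

namespace Crest.Agent.X212.Hol14
open An Wz78
open Fred93 (Fr)
open Cut54 (mu')
open Csm97 (pa pa1)

section lin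
variable {κ : Type} [Fintype κ] [DecidableEq κ] {J A p p' q q' a : En κ}

theorem one_comm {S T : En κ} (h : S * T = 1) : T * S = 1 :=
  ContinuousLinearMap.coe_injective ((mul_eq_one_comm (a := (S : Eu κ →ₗ[ℝ] Eu κ))
    (b := (T : Eu κ →ₗ[ℝ] Eu κ))).1 (congrArg ContinuousLinearMap.toLinearMap h))

theorem trn_one : trn (1 : En κ) = 1 := ContinuousLinearMap.adjoint_id

theorem pa_add (hp : a * p = p * a) (hq : a * q = q * a) :
    pa (A + a) p p' q q' = pa A p p' q q' + a := by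
  have : pa1 (A + a) p p' = pa1 A p p' + a := by
    simp only [pa1, add_mul, mul_add, hp]; abel
  simp only [pa, this, add_mul, mul_add, mul_sub, hq]; module

/-- first jets of a projector `p` and of a quaternionic structure `q` on its range -/
structure Jet (J p p' q q' : En κ) : Prop where
  ps : trn p = p
  ps' : trn p' = p'
  pp : p * p = p
  pp' : p' * p + p * p' = p'
  Jp : J * p = p * J
  Jp' : J * p' = p' * J
  qs : trn q = -q
  qs' : trn q' = -q'
  qq : q * q = -p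
  qq' : q' * q + q * q' = -p'
  Jq : J * q = -(q * J)
  Jq' : J * q' = -(q' * J)
  pq : p * q = q
  pq' : p' * q + p * q' = q'
  qp : q * p = q
  qp' : q' * p + q * p' = q'

namespace Jet
variable (h : Jet J p p' q q')
include h

theorem par1 (A : En κ) : p' + (pa1 A p p' * p - p * pa1 A p p') = 0 := by
  have e : p * (p' * p) = 0 := by
    have := congrArg (p * ·) h.pp'
    simpa only [mul_add, mu' h.pp, add_eq_right] using this
  nth_rewrite 1 [← h.pp']
  simp only [pa1, add_mul, mul_add, mul_sub, sub_mul, mul_assoc, smul_mul_assoc, mul_smul_comm,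
    one_mul, h.pp, mu' h.pp, e]
  module

theorem skw1 (hA : trn A = -A) : trn (pa1 A p p') = -pa1 A p p' := by
  simp only [pa1, trn_add, trn_mul, trn_sub, trn_smul, hA, h.ps, h.ps', mul_add, mul_sub, sub_mul,
    mul_assoc, smul_mul_assoc, one_mul, mu' h.pp, neg_mul, mul_neg, eq_sub_of_add_eq h.pp']
  module

theorem J1 (hA : J * A = A * J) : J * pa1 A p p' = pa1 A p p' * J := by
  simp only [pa1, add_mul, mul_add, mul_sub, sub_mul, mul_assoc, smul_mul_assoc, mul_smul_comm,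
    one_mul, mu' h.Jp, h.Jp, h.Jp', hA, mu' hA]

theorem key {B : En κ} (e : p' + (B * p - p * B) = 0) :
    p * (q' + (B * q - q * B)) = q' + (B * q - q * B) ∧
    (q' + (B * q - q * B)) * p = q' + (B * q - q * B) ∧
    (q' + (B * q - q * B)) * q = -(q * (q' + (B * q - q * B))) := by
  have e' : p' = p * B - B * p := by rw [← neg_sub, eq_neg_iff_add_eq_zero, e]
  refine ⟨?_, ?_, ?_⟩
  · simp only [mul_add, mul_sub, eq_sub_of_add_eq' h.pq', mu' h.pq, e', sub_mul, mul_assoc, h.pq]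
    abel
  · simp only [add_mul, mul_sub, eq_sub_of_add_eq h.qp', mu' h.qp, e', sub_mul, mul_assoc, h.qp]
    abel
  · simp only [add_mul, mul_add, mul_sub, eq_sub_of_add_eq h.qq', mu' h.qq, e', sub_mul, mul_assoc,
      h.qq, mul_neg, neg_mul]
    abel

theorem par_p (A : En κ) : p' + (pa A p p' q q' * p - p * pa A p p' q q') = 0 := by
  obtain ⟨h1, h2, -⟩ := h.key (h.par1 A)
  simp only [pa, sub_mul, mul_sub, smul_mul_assoc, mul_smul_comm, mul_assoc, h2, mu' h.pq]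
  rw [← h.par1 A]; abel

theorem par_q (A : En κ) : q' + (pa A p p' q q' * q - q * pa A p p' q q') = 0 := by
  obtain ⟨h1, -, h3⟩ := h.key (h.par1 A)
  rw [pa]
  generalize pa1 A p p' = B at *
  have e : q' = (q' + (B * q - q * B)) - (B * q - q * B) := by abel
  generalize q' + (B * q - q * B) = D at *
  simp only [e, sub_mul, mul_sub, smul_mul_assoc, mul_smul_comm, mul_assoc, h3, mul_neg, mu' h.qq,
    neg_mul, h1]
  module

theorem skw (hA : trn A = -A) : trn (pa A p p' q q') = -pa A p p' q q' := by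
  obtain ⟨-, -, h3⟩ := h.key (h.par1 A)
  have := h.skw1 hA
  rw [pa]
  generalize pa1 A p p' = B at *
  have e : trn (q' + (B * q - q * B)) = -(q' + (B * q - q * B)) := by
    simp only [trn_add, trn_sub, trn_mul, this, h.qs, h.qs', neg_mul_neg]; abel
  rw [trn_sub, trn_smul, trn_mul, e, this, h.qs, neg_mul_neg, h3]; module

theorem J2 (hA : J * A = A * J) : J * pa A p p' q q' = pa A p p' q q' * J := by
  have := h.J1 hA
  simp only [pa, add_mul, mul_add, mul_sub, sub_mul, mul_assoc, smul_mul_assoc, mul_smul_comm,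
    mu' h.Jq, h.Jq, h.Jq', this, mu' this, neg_mul, mul_neg, neg_neg]

end Jet

theorem hasDerivAt_trn {P : ℝ → En κ} {P' : En κ} {s : ℝ} (h : HasDerivAt P P' s) :
    HasDerivAt (fun s => trn (P s)) (trn P') s :=
  (Eqv71.trnL : CL (En κ) (En κ)).hasFDerivAt.comp_hasDerivAt s h

theorem jet_of {e p q : ℝ → En κ} {s : ℝ} (h : ∀ s, Qt J (e s) (p s) (q s))
    (hp : HasDerivAt p p' s) (hq : HasDerivAt q q' s) : Jet J (p s) p' (q s) q' := by
  have u : ∀ {f g : ℝ → En κ} {f' g' : En κ}, HasDerivAt f f' s → HasDerivAt g g' s →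
      (∀ t, f t = g t) → f' = g' := fun hf hg e => hf.unique (funext e ▸ hg)
  exact ⟨Sym.trn (h s).hq.sym, u (hasDerivAt_trn hp) hp fun t => Sym.trn (h t).hq.sym,
    (h s).hq.idem, u (hp.mul hp) hp fun t => (h t).hq.idem,
    (h s).hq.comm, u (hp.const_mul J) (hp.mul_const J) fun t => (h t).hq.comm,
    Skw.trn (h s).sk, u (hasDerivAt_trn hq) hq.neg fun t => Skw.trn (h t).sk,
    (h s).sq, u (hq.mul hq) hp.neg fun t => (h t).sq,
    (h s).anti, u (hq.const_mul J) (hq.mul_const J).neg fun t => (h t).anti,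
    (h s).qC, u (hp.mul hq) hq fun t => (h t).qC, (h s).Cq, u (hq.mul hp) hq fun t => (h t).Cq⟩

/-- orthogonal transport -/
structure Tr (A P : ℝ → En κ) : Prop where
  sk : ∀ s, trn (A s) = -A s
  h0 : P 0 = 1
  d : ∀ s, HasDerivAt P (-(A s * P s)) s

namespace Tr
variable {A P T T' : ℝ → En κ} (h : Tr A P)
include h

theorem der {s : ℝ} {T' : En κ} (hT : HasDerivAt T T' s) :
    HasDerivAt (fun s => trn (P s) * T s * P s)
      (trn (P s) * (T' + (A s * T s - T s * A s)) * P s) s := by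
  refine (((hasDerivAt_trn (h.d s)).mul hT).mul (h.d s)).congr_deriv ?_
  simp only [trn_neg, trn_mul, h.sk, Pi.mul_apply]
  noncomm_ring

theorem conj (hT : ∀ s, HasDerivAt T (T' s) s) (e : ∀ s, T' s + (A s * T s - T s * A s) = 0)
    (s : ℝ) : trn (P s) * T s * P s = T 0 := by
  rw [is_const_of_deriv_eq_zero (f := fun s => trn (P s) * T s * P s)
    (fun s => (h.der (hT s)).differentiableAt)
    (fun s => by rw [(h.der (hT s)).deriv, e, mul_zero, zero_mul]) s 0, h.h0, trn_one, one_mul,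
    mul_one]

theorem l (s : ℝ) : trn (P s) * P s = 1 := by
  simpa using h.conj (T := fun _ => 1) (fun s => hasDerivAt_const s _) (by simp) s

theorem r (s : ℝ) : P s * trn (P s) = 1 := one_comm (h.l s)

/-- parallel endomorphisms are intertwined -/
theorem int (hT : ∀ s, HasDerivAt T (T' s) s) (e : ∀ s, T' s + (A s * T s - T s * A s) = 0)
    (s : ℝ) : T s * P s = P s * T 0 := by
  rw [← h.conj hT e s, ← mul_assoc, ← mul_assoc, h.r, one_mul]

theorem int' (hT : ∀ s, HasDerivAt T (T' s) s) (e : ∀ s, T' s + (A s * T s - T s * A s) = 0)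
    (s : ℝ) : T 0 * trn (P s) = trn (P s) * T s := by
  rw [← h.conj hT e s, mul_assoc, h.r, mul_one]

end Tr

theorem sp_of {e C : En κ} (h : Qt J e p C) {g : UnitAddCircle → En κ} {G : Sy κ}
    (hG : ∀ θ, G θ = g θ * p + (e - p)) (l : ∀ θ, trn (g θ) * g θ = 1)
    (hJ : ∀ θ, J * g θ = g θ * J) (hp : ∀ θ, p * g θ = g θ * p) (hC : ∀ θ, C * g θ = g θ * C) :
    Sp J e p C G := by
  have eC : e * C = C := by rw [← h.qC, ← mul_assoc, h.pq]
  have Ce : C * e = C := by rw [← h.Cq, mul_assoc, h.qp]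
  have r : ∀ θ, g θ * trn (g θ) = 1 := fun θ => one_comm (l θ)
  have hp' : ∀ θ, p * trn (g θ) = trn (g θ) * p := fun θ => by
    have := congrArg trn (hp θ)
    rw [trn_mul, trn_mul, Sym.trn h.hq.sym] at this
    exact this.symm
  have eg : ∀ θ, e * (g θ * p) = g θ * p := fun θ => by rw [← hp, ← mul_assoc, h.pq]
  have eg' : ∀ θ, e * (trn (g θ) * p) = trn (g θ) * p := fun θ => by rw [← hp', ← mul_assoc, h.pq]
  refine ⟨⟨fun θ => ⟨?_, ?_⟩, fun θ => ?_, fun θ => ?_⟩, fun θ => ?_, fun θ => ?_, fun θ => ?_⟩ <;>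
  simp only [hG, trn_add, trn_sub, trn_mul, Sym.trn h.hq.sym, Sym.trn h.hp.sym, mul_add, add_mul,
    mul_sub, sub_mul, mul_assoc, mu' (hJ _), h.hp.comm, h.hq.comm, h.pq, h.qp, h.hp.idem, h.hq.idem,
    mu' (hp _), mu' (hp' _), mu' (l _), mu' (r _), eg, eg', hp', mu' (hC _), h.qC, h.Cq, eC, Ce,
    one_mul, sub_self, add_zero] <;>
  abel

end lin

variable {E : Type} [NormedAddCommGroup E] [NormedSpace ℝ E] [FiniteDimensional ℝ E]
  [MeasurableSpace E] [BorelSpace E]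
  {HM : Type} [TopologicalSpace HM] {I : ModelWithCorners ℝ E HM} [I.Boundaryless]
  {M : Type} [TopologicalSpace M] [ChartedSpace HM M] [IsManifold I ∞ M]
  [MeasurableSpace M] [BorelSpace M] [SecondCountableTopology M] {ι : Type} [Fintype ι]
  {lam : Type} [Fintype lam] {m : Md M ι lam} {B : Base M ι lam} {k : Cut M lam}
  {F : Fr I M ι} {G : Geo I M ι lam} {W : m.Cn} {α : M → Fm ι m.A}

variable (k) in
/-- continuous unitary connections along the paths -/
structure Cn0 (W : m.Cn) : Prop where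
  ct : ∀ a, ContinuousOn (W a) k.supp
  sk : ∀ a, ∀ x ∈ k.supp, Skw (W a x)
  J : ∀ a, ∀ x ∈ k.supp, m.J * W a x = W a x * m.J

theorem cn0_of (C : m.IsConn B G W) : Cn0 k W :=
  ⟨fun a x _ => (C.cc.sm a x).continuousAt.continuousWithinAt, fun a x _ => C.sk a x, fun a x _ => C.J a x⟩

theorem Cn0.addC (h : Cn0 k W) (hα : ContinuousOn α k.supp)
    (hg : ∀ x ∈ k.supp, ∀ a, α x a ∈ m.gS x) : Cn0 k (m.addC W α) :=
  ⟨fun a => (h.ct a).add ((opL ∘L PiLp.proj 2 (fun _ : ι => m.A) a).continuous.comp_continuousOn hα),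
    fun a x hx => skw_of (by
      rw [Md.addC, trn_add, Skw.trn (h.sk a x hx), Skw.trn (g_skw (hg x hx a)), neg_add]),
    fun a x hx => by rw [Md.addC, mul_add, add_mul, h.J a x hx, g_J (hg x hx a)]⟩

theorem A2_addC (H : m.OK I B) {θ : UnitAddCircle} {s : ℝ} (hg : ∀ a, α (k.γ θ s) a ∈ m.gS (k.γ θ s)) :
    k.A2 B F m (m.addC W α) θ s =
      k.A2 B F m W θ s + ∑ a, k.vel F θ s a • opL (α (k.γ θ s) a) := by
  rw [Csm97.A2_eq, Csm97.A2_eq, ← pa_add]
  · simp only [Md.addC, smul_add, Finset.sum_add_distrib]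
  · simp only [Finset.sum_mul, Finset.mul_sum, smul_mul_assoc, mul_smul_comm, g_pi H (hg _)]
  · simp only [Finset.sum_mul, Finset.mul_sum, smul_mul_assoc, mul_smul_comm, g_qu H (hg _)]

variable (k B F) in
/-- the holonomy -/
def hol (W : m.Cn) (θ : UnitAddCircle) : En (Fin m.N) :=
  trn (trp (k.A2 B F m W 0) 1) * trp (k.A2 B F m W θ) 1

theorem sym_eq (θ : UnitAddCircle) : k.sym B F m W θ =
    hol B k F W θ * k.pi B F m k.x0 + (m.pp B k.x0 - k.pi B F m k.x0) := rfl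

section main
variable (hB : B.OK I) (H : m.OK I B) (hk : k.OK B F)
include hB H hk

theorem qt_γ (θ : UnitAddCircle) (s : ℝ) :
    Qt m.J (m.pp B (k.γ θ s)) (k.pi B F m (k.γ θ s)) (k.qu B F m (k.γ θ s)) :=
  qt_qu hB H (hk.om θ s) (hk.q0 m H θ s)

theorem qt_x0 : Qt m.J (m.pp B k.x0) (k.pi B F m k.x0) (k.qu B F m k.x0) := qt_γ hB H hk 0 0

theorem jet_γ (θ : UnitAddCircle) (s : ℝ) : Jet m.J (k.pi B F m (k.γ θ s))
    (deriv (fun s => k.pi B F m (k.γ θ s)) s) (k.qu B F m (k.γ θ s))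
    (deriv (fun s => k.qu B F m (k.γ θ s)) s) :=
  jet_of (qt_γ hB H hk θ) (Csm97.pi_diff hB H hk θ s).hasDerivAt
    (Csm97.qu_diff hB H hk θ s).hasDerivAt

variable (h : Cn0 k W)
include h

theorem tr_A2 (θ : UnitAddCircle) : Tr (k.A2 B F m W θ) (trp (k.A2 B F m W θ)) :=
  ⟨fun s => by
    rw [Csm97.A2_eq]
    refine (jet_γ hB H hk θ s).skw ?_
    have : ∀ a, trn (W a (k.γ θ s)) = -W a (k.γ θ s) := fun a => Skw.trn (h.sk a _ ⟨(θ, s), rfl⟩)
    simp only [map_sum, map_smul, this, smul_neg, Finset.sum_neg_distrib],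
    (Csm97.trp_A2 hB H hk h.ct θ).1, (Csm97.trp_A2 hB H hk h.ct θ).2⟩

theorem J_A2 (θ : UnitAddCircle) (s : ℝ) : m.J * k.A2 B F m W θ s = k.A2 B F m W θ s * m.J := by
  rw [Csm97.A2_eq]
  refine (jet_γ hB H hk θ s).J2 ?_
  have : ∀ a, m.J * W a (k.γ θ s) = W a (k.γ θ s) * m.J := fun a => h.J a _ ⟨(θ, s), rfl⟩
  simp only [Finset.sum_mul, Finset.mul_sum, smul_mul_assoc, mul_smul_comm, this]

theorem J_trp (θ : UnitAddCircle) (s : ℝ) :
    m.J * trp (k.A2 B F m W θ) s = trp (k.A2 B F m W θ) s * m.J :=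
  (tr_A2 hB H hk h θ).int (T := fun _ => m.J) (fun s => hasDerivAt_const s _)
    (fun s => by rw [J_A2 hB H hk h, sub_self, add_zero]) s

theorem pi_trp (θ : UnitAddCircle) (s : ℝ) : k.pi B F m (k.γ θ s) * trp (k.A2 B F m W θ) s =
    trp (k.A2 B F m W θ) s * k.pi B F m k.x0 := by
  rw [← hk.h0 θ 0 le_rfl]
  exact (tr_A2 hB H hk h θ).int (fun s => (Csm97.pi_diff hB H hk θ s).hasDerivAt)
    (fun s => by rw [Csm97.A2_eq]; exact (jet_γ hB H hk θ s).par_p _) s

theorem qu_trp (θ : UnitAddCircle) (s : ℝ) : k.qu B F m (k.γ θ s) * trp (k.A2 B F m W θ) s =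
    trp (k.A2 B F m W θ) s * k.qu B F m k.x0 := by
  rw [← hk.h0 θ 0 le_rfl]
  exact (tr_A2 hB H hk h θ).int (fun s => (Csm97.qu_diff hB H hk θ s).hasDerivAt)
    (fun s => by rw [Csm97.A2_eq]; exact (jet_γ hB H hk θ s).par_q _) s

theorem hol_comm {T T₁ : En (Fin m.N)}
    (e : ∀ θ, T₁ * trp (k.A2 B F m W θ) 1 = trp (k.A2 B F m W θ) 1 * T) (θ : UnitAddCircle) :
    T * hol B k F W θ = hol B k F W θ * T := by
  rw [hol, mul_assoc, ← e, ← mul_assoc, ← mul_assoc]
  congr 1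
  rw [← mul_one (_ * T₁), ← (tr_A2 hB H hk h 0).r 1, ← mul_assoc, mul_assoc _ T₁, e, ← mul_assoc,
    (tr_A2 hB H hk h 0).l, one_mul]

theorem hol_l (θ : UnitAddCircle) : trn (hol B k F W θ) * hol B k F W θ = 1 := by
  rw [hol, trn_mul, Eqv71.trn_trn, mul_assoc, mu' ((tr_A2 hB H hk h 0).r 1), one_mul,
    (tr_A2 hB H hk h θ).l]

theorem J_hol (θ : UnitAddCircle) : m.J * hol B k F W θ = hol B k F W θ * m.J :=
  hol_comm hB H hk h (fun θ => J_trp hB H hk h θ 1) θ

theorem pi_hol (θ : UnitAddCircle) :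
    k.pi B F m k.x0 * hol B k F W θ = hol B k F W θ * k.pi B F m k.x0 :=
  hol_comm hB H hk h (fun θ => hk.h1 θ 1 le_rfl ▸ pi_trp hB H hk h θ 1) θ

theorem qu_hol (θ : UnitAddCircle) :
    k.qu B F m k.x0 * hol B k F W θ = hol B k F W θ * k.qu B F m k.x0 :=
  hol_comm hB H hk h (fun θ => hk.h1 θ 1 le_rfl ▸ qu_trp hB H hk h θ 1) θ

theorem cm_sym (θ : UnitAddCircle) : cm (k.sym B F m W) θ = k.sym B F m W θ :=
  cm_apply (Csm97.sym_cont hB H hk h.ct) θ

/-- **The symbol takes values in `Sp(1)`** -/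
theorem sp_sym : Sp m.J (m.pp B k.x0) (k.pi B F m k.x0) (k.qu B F m k.x0) (cm (k.sym B F m W)) :=
  sp_of (qt_x0 hB H hk) (cm_sym hB H hk h) (hol_l hB H hk h) (J_hol hB H hk h) (pi_hol hB H hk h)
    (qu_hol hB H hk h)

/-- **Index zero** -/
theorem fr_T : Fr (k.T B F m W) 0 := (sp_sym hB H hk h).fr (qt_x0 hB H hk)

theorem JH_T (ψ : k.H B m) : JH _ _ (k.T B F m W ψ) = k.T B F m W (JH _ _ ψ) :=
  JH_tpzL (cp_pp hB H _) (fun θ => ((sp_sym hB H hk h).cm θ).1) ψ

theorem fr_sub {σ : CL (k.H B m) (k.H B m)} (hσ : IsCompactOperator σ) : Fr (k.T B F m W - σ) 0 :=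
  (fr_T hB H hk h).of_sub_compact (by rw [sub_sub_cancel_left]; exact hσ.neg)

end main

section cfg
variable {r : ℕ} {c : Cfg M ι lam r}

theorem cpt_tc (t : Tc M lam r) : IsCompactOperator (c.tc B F k t) := cpt_frk _ _ _

theorem cpt_wpc {K : Type} [Fintype K] (T : K → Tc M lam r) (w : K → ℝ) :
    IsCompactOperator (wpc B F k T w c) :=
  cpt_sum _ fun j _ => (cpt_tc (T j)).smul (w j)

theorem fr_wpc (hB : B.OK I) (H : c.m.OK I B) (hk : k.OK B F) (h : Cn0 k c.W) {K : Type}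
    [Fintype K] (T : K → Tc M lam r) (w : K → ℝ) : Fr (k.T B F c.m c.W - wpc B F k T w c) 0 :=
  fr_sub hB H hk h (cpt_wpc T w)

theorem JH_frk_pi (hB : B.OK I) (H : m.OK I B) {Ξ : En (Fin m.N)} (hΞ : m.J * Ξ = Ξ * m.J)
    (a b : ℕ) (w : ℂ) (ψ : k.H B m) :
    JH _ _ (frk _ _ a b (k.pi B F m k.x0 * csE m.J w * Ξ * k.pi B F m k.x0) ψ) =
      frk _ _ a b (k.pi B F m k.x0 * csE m.J w * Ξ * k.pi B F m k.x0) (JH _ _ ψ) :=
  JH_frk (cp_pp hB H _) (((Commute.mul_right (J_pi H) (csE_comm rfl w).symm).mul_right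
    hΞ).mul_right (J_pi H)) a b ψ

variable [T2Space M] (hB : B.OK I) (H : c.m.OK I B) (C : c.m.IsConn B G c.W)
  (ra : Wrd81.RH G.F (c.m.adW c.W))
include hB H C ra

theorem res_g {s : M → c.m.A} (hs : ∀ x, s x ∈ c.m.gS x) (x : M) :
    G.F.res (c.m.adW c.W) s x ∈ c.m.gS x := by
  have sg := Std94.sm_pg hB H
  rw [← ra.res_prj sg inner_pg pg_pg (pg_par H C sg) (fun x => pg_of_mem (hs x)) x]
  exact pg_mem x _

theorem wd_g {s : M → c.m.A} (hs : ∀ x, s x ∈ c.m.gS x) (l : List (La M)) (x : M) :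
    Wrd81.wd (c.la G.F) s l x ∈ c.m.gS x := by
  induction l generalizing x with
  | nil => exact hs x
  | cons t u ih =>
    cases t
    exacts [Submodule.smul_mem _ _ (ih x), res_g hB H C ra ih x]

theorem aw_g (ξ : AW M) (x : M) : c.aw G.F ξ x ∈ c.m.gS x := by
  refine wd_g hB H C ra ?_ _ x
  cases ξ.s
  exacts [fun _ => q_mem _ _, res_g hB H C ra (res_g hB H C ra fun x =>
    Submodule.sum_mem _ fun s _ => Submodule.smul_mem _ _ (Fg_mem _ s))]

theorem xi_comm {x : M} {T : En (Fin c.m.N)} (hT : ∀ ξ ∈ c.m.gS x, T * opL ξ = opL ξ * T)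
    (ξ : Xi M lam r) : T * c.xi G.F ξ x = c.xi G.F ξ x * T := by
  cases ξ
  exacts [Commute.one_right T, hT _ (aw_g hB H C ra _ x),
    hT _ (wd_g hB H C ra (fun _ => q_mem _ _) _ x)]

theorem JH_tc (t : Tc M lam r) (ψ : k.H B c.m) :
    JH _ _ (c.tc B G.F k t ψ) = c.tc B G.F k t (JH _ _ ψ) :=
  JH_frk_pi hB H (xi_comm hB H C ra (fun _ => g_J) t.ξ) _ _ _ ψ

end cfg

end Crest.Agent.X212.Hol14
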