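import Crest.Agent.X212.Hol14.Mode
import Crest.Agent.X212.Fred93.Cpt

/-!
# Row 212, Toeplitz cut: Toeplitz operators are Fredholm; index, compactness, density
-/

set_option autoImplicit false
set_option linter.unusedSectionVars false
noncomputable section
open scoped Topology InnerProductSpace ENNReal
open MeasureTheory Set Function Filter Module

namespace Crest.Agent.X212.Hol14
open An Wz78
open Fred93 (Fr)

variable {κ : Type} [Fintype κ] [DecidableEq κ] {J p T : En κ}

theorem norm_cpr_mulC (g : Sy κ) (ψ : Hd J p) : ‖cpr J p (mulC g) ψ‖ ≤ ‖g‖ * ‖ψ‖ :=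
  ((Hd J p).norm_starProjection_apply_le _).trans (norm_mulC g ψ)

theorem norm_cpr (g : Sy κ) : ‖cpr J p (mulC g)‖ ≤ ‖g‖ :=
  ContinuousLinearMap.opNorm_le_bound _ (norm_nonneg g) (norm_cpr_mulC g)

theorem cpr_add (A B : CL (L2c κ) (L2c κ)) : cpr J p (A + B) = cpr J p A + cpr J p B := by
  simp only [cpr, ContinuousLinearMap.add_comp, ContinuousLinearMap.comp_add]

theorem cpr_smul (r : ℝ) (A : CL (L2c κ) (L2c κ)) : cpr J p (r • A) = r • cpr J p A := by
  simp only [cpr, ContinuousLinearMap.smul_comp, ContinuousLinearMap.comp_smul]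

/-- Toeplitz operators as a linear map of the symbol -/
def tpzL (J p : En κ) : CL (Sy κ) (CL (Hd J p) (Hd J p)) := LinearMap.mkContinuous
  { toFun := fun g => cpr J p (mulC g)
    map_add' := fun g g' => by rw [map_add, cpr_add]
    map_smul' := fun r g => by rw [map_smul, cpr_smul]; rfl } 1 fun g =>
  (norm_cpr g).trans_eq (one_mul _).symm

theorem tpz_eq (g : UnitAddCircle → En κ) : tpz J p g = tpzL J p (cm g) := rfl

theorem tpz_coe (g : Sy κ) : tpz J p g = tpzL J p g := by rw [tpz_eq, cm_coe]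

theorem tpzL_coe (g : Sy κ) (ψ : Hd J p) : (tpzL J p g ψ : L2c κ) = PH J p (mulC g ψ) := rfl

theorem norm_tpzL (g : Sy κ) : ‖tpzL J p g‖ ≤ ‖g‖ := norm_cpr g

theorem tpzL_one (ψ : Hd J p) : tpzL J p 1 ψ = ψ := Subtype.ext <| by
  rw [tpzL_coe, mulC_one, PH_coe]

theorem tpzL_congr (h : CP J p) {g g' : Sy κ} (e : ∀ θ, g θ * p = g' θ * p) :
    tpzL J p g = tpzL J p g' := ContinuousLinearMap.ext fun ψ => Subtype.ext <| by
  rw [tpzL_coe, tpzL_coe, ← cS_coe h ψ, ← mulC_mul, ← mulC_mul,
    show g * cS p = g' * cS p from ContinuousMap.ext e]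

theorem tpzL_p (h : CP J p) {g : Sy κ} (e : ∀ θ, g θ * p = p) (ψ : Hd J p) : tpzL J p g ψ = ψ := by
  rw [tpzL_congr h (g' := 1) fun θ => (e θ).trans (one_mul p).symm, tpzL_one]

theorem inner_tpzL (g : Sy κ) (ψ χ : Hd J p) : ⟪tpzL J p g ψ, χ⟫_ℝ = ⟪ψ, tpzL J p (tS g) χ⟫_ℝ := by
  rw [Submodule.coe_inner, Submodule.coe_inner, tpzL_coe, tpzL_coe,
    Submodule.inner_starProjection_left_eq_right, ← Submodule.inner_starProjection_left_eq_right _ ψ.1,
    PH_coe, PH_coe, inner_mulC]

theorem adjoint_tpzL (g : Sy κ) : ContinuousLinearMap.adjoint (tpzL J p g) = tpzL J p (tS g) :=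
  ((ContinuousLinearMap.eq_adjoint_iff _ _).2 fun ψ χ => by rw [inner_tpzL, tS_tS]).symm

/-- symbols commuting with `J` and `p` -/
def Cm (J p : En κ) (g : Sy κ) : Prop := ∀ θ, J * g θ = g θ * J ∧ p * g θ = g θ * p

theorem Cm.tS (h : CP J p) {g : Sy κ} (hg : Cm J p g) : Cm J p (tS g) := fun θ =>
  ⟨trn_comm h.sk (hg θ).1, by
    have := congrArg trn (hg θ).2
    rw [trn_mul, trn_mul, Sym.trn h.sym] at this
    exact this.symm⟩

theorem cm_fS (h : CP J p) (φ : C(UnitAddCircle, ℂ)) : Cm J p (fS J φ) := fun _ =>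
  ⟨(csE_comm rfl _).symm, (csE_comm h.comm _).symm⟩

/-- the commutator with the Hardy projector -/
def hk (J p : En κ) : CL (Sy κ) (CL (L2c κ) (L2c κ)) :=
  (ContinuousLinearMap.mul ℝ _ (PH J p) - (ContinuousLinearMap.mul ℝ _).flip (PH J p)) ∘L mulC

theorem hk_apply (g : Sy κ) (u : L2c κ) :
    hk J p g u = PH J p (mulC g u) - mulC g (PH J p u) := rfl

theorem cpt_fin {X Y : Type} [NormedAddCommGroup X] [NormedSpace ℝ X] [NormedAddCommGroup Y]
    [NormedSpace ℝ Y] (A : CL (Eu κ) Y) (B : CL X (Eu κ)) : IsCompactOperator (A ∘L B) :=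
  (isCompactOperator_of_locallyCompactSpace_dom B).clm_comp A

theorem cpt_sum {X Y α : Type} [NormedAddCommGroup X] [NormedSpace ℝ X] [NormedAddCommGroup Y]
    [NormedSpace ℝ Y] (s : Finset α) {A : α → CL X Y} (h : ∀ a ∈ s, IsCompactOperator (A a)) :
    IsCompactOperator (∑ a ∈ s, A a : CL X Y) :=
  Finset.sum_induction A (fun L : CL X Y => IsCompactOperator L) (fun _ _ a b => a.add b)
    isCompactOperator_zero h

theorem cpt_mono (h : CP J p) (hJ : J * T = T * J) (hp : p * T = T * p) (k : ℤ) :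
    IsCompactOperator (hk J p (eS J k * cS T)) := by
  let c : ℤ → ℝ := fun j => (if 0 ≤ j + k then 1 else 0) - if 0 ≤ j then 1 else 0
  have : hk J p (eS J k * cS T) =
      ∑ j ∈ Finset.Icc (-|k|) |k|, (c j • md J (j + k) ∘L (p * T)) ∘L fc J j := by
    refine ContinuousLinearMap.ext fun u => ext_fc h.toCJ fun n => ?_
    have e : ∀ w, fc J n (mulC (eS J k * cS T) w) = T (fc J (n - k) w) := fun w => by
      rw [mulC_mul, fc_eS h.toCJ, fc_cS h.sk hJ]
    have e2 : ∀ w, T (p w) = p (T w) := fun w => (congrArg (fun S : En κ => S w) hp).symm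
    rw [hk_apply, map_sub, fc_PH h, e, e, fc_PH h, sum_apply, map_sum,
      Finset.sum_eq_single (n - k) (fun j _ hj => ?_) fun hj => ?_]
    · simp only [ContinuousLinearMap.comp_apply, smul_apply, map_smul, fc_md h.toCJ, c,
        sub_add_cancel, if_true, mul_apply_eq_comp]
      split_ifs <;> simp [e2]
    · simp only [ContinuousLinearMap.comp_apply, smul_apply, map_smul, fc_md h.toCJ]
      rw [if_neg (by omega), smul_zero]
    · have : c (n - k) = 0 := by
        rw [Finset.mem_Icc, not_and_or] at hj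
        simp only [c]
        cases abs_cases k <;> split_ifs <;> first | omega | simp
      simp [this]
  rw [this]
  exact cpt_sum _ fun j _ => cpt_fin _ _

theorem cpt_fS (h : CP J p) (φ : C(UnitAddCircle, ℂ)) :
    ∀ T : En κ, J * T = T * J → p * T = T * p → IsCompactOperator (hk J p (fS J φ * cS T)) := by
  refine four_ind (P := fun φ => ∀ T : En κ, J * T = T * J → p * T = T * p →
    IsCompactOperator (hk J p (fS J φ * cS T))) ?_ (fun T _ _ => ?_)
    (fun n T a b => cpt_mono h a b n) (fun φ ψ h1 h2 T a b => ?_) (fun c φ h1 T a b => ?_) φ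
  · simp only [ofPred_forall]
    refine isClosed_iInter fun T => isClosed_iInter fun _ => isClosed_iInter fun _ => ?_
    exact isClosed_setOfPred_isCompactOperator.preimage
      (f := fun φ => hk J p (fS J φ * cS T)) (by fun_prop)
  · rw [show fS J 0 * cS T = 0 from ContinuousMap.ext fun _ => by simp, map_zero]
    exact isCompactOperator_zero
  · rw [show fS J (φ + ψ) * cS T = fS J φ * cS T + fS J ψ * cS T from
      ContinuousMap.ext fun _ => by rw [map_add]; exact add_mul _ _ _, map_add]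
    exact (h1 T a b).add (h2 T a b)
  · rw [fS_smul h.sq, show fS J φ * cS (csE J c) * cS T = fS J φ * cS (csE J c * T) from
      ContinuousMap.ext fun _ => mul_assoc _ _ _]
    refine h1 (csE J c * T) ?_ ?_
    · rw [← mul_assoc, ← csE_comm rfl, mul_assoc, a, mul_assoc]
    · rw [← mul_assoc, ← csE_comm h.comm, mul_assoc, b, mul_assoc]

/-- the projector onto the commutant of `J` and `p` -/
def av (J p : En κ) : En κ →ₗ[ℝ] En κ where
  toFun T := (1 / 2 : ℝ) • ((p * T * p + (1 - p) * T * (1 - p)) -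
    J * (p * T * p + (1 - p) * T * (1 - p)) * J)
  map_add' S T := by simp only [mul_add, add_mul]; module
  map_smul' r T := by simp only [mul_add, add_mul, mul_smul_comm, smul_mul_assoc, RingHom.id_apply]; module

theorem av_comm (h : CP J p) (T : En κ) :
    J * av J p T = av J p T * J ∧ p * av J p T = av J p T * p := by
  set S := p * T * p + (1 - p) * T * (1 - p) with hS
  have h1 : p * S = S * p := by
    have a : p * (1 - p) = 0 := by rw [mul_sub, h.idem, mul_one, sub_self]
    have b : (1 - p) * p = 0 := by rw [sub_mul, h.idem, one_mul, sub_self]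
    rw [hS, mul_add, add_mul, ← mul_assoc, ← mul_assoc, ← mul_assoc, ← mul_assoc, a, h.idem,
      mul_assoc _ (1 - p), b, mul_assoc _ p p, h.idem]
    simp
  change J * ((1 / 2 : ℝ) • (S - J * S * J)) = ((1 / 2 : ℝ) • (S - J * S * J)) * J ∧
    p * ((1 / 2 : ℝ) • (S - J * S * J)) = ((1 / 2 : ℝ) • (S - J * S * J)) * p
  rw [mul_smul_comm, smul_mul_assoc, mul_smul_comm, smul_mul_assoc]
  constructor
  · rw [mul_sub, sub_mul, ← mul_assoc, ← mul_assoc, h.sq, mul_assoc _ J J, h.sq]
    congr 1; noncomm_ring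
  · rw [mul_sub, sub_mul, h1, ← mul_assoc, ← mul_assoc, ← h.comm, mul_assoc J p, h1,
      mul_assoc _ J p, h.comm]
    simp only [mul_assoc]

theorem av_fix (h : CP J p) (hJ : J * T = T * J) (hp : p * T = T * p) : av J p T = T := by
  have h1 : p * T * p + (1 - p) * T * (1 - p) = T := by
    have : T * p * p = T * p := by rw [mul_assoc, h.idem]
    simp only [sub_mul, mul_sub, one_mul, mul_one, this, hp]
    abel
  change (1 / 2 : ℝ) • (_ - J * _ * J) = T
  rw [h1, hJ, mul_assoc, h.sq, mul_neg, mul_one]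
  module

theorem cpt_hk (h : CP J p) {g : Sy κ} (hg : Cm J p g) : IsCompactOperator (hk J p g) := by
  let φ : κ × κ → C(UnitAddCircle, ℝ) := fun i => ⟨fun θ => hsL (g θ) i, by fun_prop⟩
  have : g = ∑ i, fS J (ofR (φ i)) * cS (av J p (opL (EuclideanSpace.single i 1))) := by
    refine ContinuousMap.ext fun θ => ?_
    rw [ContinuousMap.sum_apply, ← av_fix h (hg θ).1 (hg θ).2, ← opL_hsL (g θ), ← eu_sum (hsL (g θ)),
      map_sum, map_sum]
    refine Finset.sum_congr rfl fun i _ => ?_
    change _ = csE J ((hsL (g θ) i : ℝ) : ℂ) * _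
    rw [csE_real, map_smul, map_smul, smul_mul_assoc, one_mul]; rfl
  rw [this, map_sum]
  exact cpt_sum _ fun i _ => cpt_fS h _ _ (av_comm h _).1 (av_comm h _).2

/-- Toeplitz operators are multiplicative modulo compact operators -/
theorem cpt_mul (h : CP J p) {g : Sy κ} (hg : Cm J p g) (g' : Sy κ) :
    IsCompactOperator (tpzL J p g ∘L tpzL J p g' - tpzL J p (g * g') :) := by
  have : tpzL J p g ∘L tpzL J p g' - tpzL J p (g * g') = -((Hd J p).orthogonalProjectionOnto ∘L
      hk J p g ∘L ((1 - PH J p) ∘L mulC g' ∘L (Hd J p).subtypeL)) := by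
    refine ContinuousLinearMap.ext fun ψ => Subtype.ext ?_
    change PH J p (mulC g (PH J p (mulC g' ψ))) - PH J p (mulC (g * g') ψ) =
      -PH J p (hk J p g (mulC g' ψ - PH J p (mulC g' ψ)))
    have e : ∀ u, PH J p (PH J p u) = PH J p u := fun u => PH_coe ⟨_, (Hd J p).starProjection_apply_mem u⟩
    simp only [hk_apply, map_sub, e, mulC_mul]
    abel
  rw [this]
  exact (((cpt_hk h hg).comp_clm ((1 - PH J p) ∘L mulC g' ∘L (Hd J p).subtypeL)).clm_comp
    (Hd J p).orthogonalProjectionOnto).neg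

theorem fr_mul (h : CP J p) {g g' : Sy κ} (hg : Cm J p g) {n m : ℤ} (a : Fr (tpzL J p g) n)
    (b : Fr (tpzL J p g') m) : Fr (tpzL J p (g * g')) (n + m) :=
  (a.comp b).of_sub_compact (by simpa using (cpt_mul h hg g').neg)

/-- invertible symbols give Fredholm operators -/
theorem isFredholm_tpzL (h : CP J p) {g g' : Sy κ} (hg : Cm J p g) (hg' : Cm J p g')
    (e : ∀ θ, g θ * g' θ * p = p) (e' : ∀ θ, g' θ * g θ * p = p) : (tpzL J p g).IsFredholm := by
  refine Fred93.isFredholm_of_parametrix (tpzL J p g') (tpzL J p g') ?_ ?_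
  · have := cpt_mul h hg' g
    rwa [show tpzL J p (g' * g) = ContinuousLinearMap.id ℝ _ from
      ContinuousLinearMap.ext (tpzL_p h e')] at this
  · have := cpt_mul h hg g'
    rwa [show tpzL J p (g * g') = ContinuousLinearMap.id ℝ _ from
      ContinuousLinearMap.ext (tpzL_p h e)] at this

/-- symbols that are unitary on the range of `p` -/
structure Un (J p : En κ) (g : Sy κ) : Prop where
  cm : Cm J p g
  l : ∀ θ, trn (g θ) * g θ * p = p
  r : ∀ θ, g θ * trn (g θ) * p = p

theorem Un.tS (h : CP J p) {g : Sy κ} (hg : Un J p g) : Un J p (tS g) :=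
  ⟨hg.cm.tS h, fun θ => by
    have := hg.r θ
    rwa [← tS_apply, ← congrArg (fun g : Sy κ => g θ) (tS_tS g)] at this, fun θ => by
    have := hg.l θ
    rw [← tS_apply (Hol14.tS g), tS_tS]; exact this⟩

theorem Un.isFredholm (h : CP J p) {g : Sy κ} (hg : Un J p g) : (tpzL J p g).IsFredholm :=
  isFredholm_tpzL h hg.cm (hg.cm.tS h) hg.r hg.l

/-- the index through the adjoint -/
theorem ind_adjoint {H : Type} [NormedAddCommGroup H] [InnerProductSpace ℝ H] [CompleteSpace H]
    {L : CL H H} (h : L.IsFredholm) :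
    Fr L ((finrank ℝ L.ker : ℤ) - finrank ℝ (ContinuousLinearMap.adjoint L).ker) := by
  refine ⟨h, ?_⟩
  have hc : IsClosed (L.range : Set H) := h.isClosed_range
  have : CompleteSpace L.range := hc.completeSpace_coe
  rw [Fred93.ind, LinearMap.index_eq_finrank_sub, ← ContinuousLinearMap.orthogonal_range]
  congr 2
  exact (L.range.quotientEquivOrthogonal).toLinearEquiv.finrank_eq

end Crest.Agent.X212.Hol14
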