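import Crest.Agent.X212.Hol14.Hardy

/-!
# Row 212, Toeplitz cut: index, compactness, density
-/

set_option autoImplicit false
set_option linter.unusedSectionVars false
noncomputable section
open scoped Topology InnerProductSpace ENNReal
open MeasureTheory Set Function Filter Module

namespace Crest.Agent.X212.Hol14
open An Wz78
open Fred93 (Fr)

variable {κ : Type} [Fintype κ] [DecidableEq κ] {J p q C T : En κ}

theorem mulC2 {g h k : Sy κ} (e : ∀ θ, g θ * h θ = k θ) (u : L2c κ) :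
    mulC g (mulC h u) = mulC k u := by
  rw [← mulC_mul, show g * h = k from ContinuousMap.ext e]

theorem mulC_comm {g h g' h' : Sy κ} (e : ∀ θ, g θ * h θ = h' θ * g' θ) (u : L2c κ) :
    mulC g (mulC h u) = mulC h' (mulC g' u) := by
  rw [mulC2 (k := h' * g') e, mulC_mul]

theorem app {S T : En κ} (h : S = T) (v : Eu κ) : S v = T v := by rw [h]

theorem Cm.p_fc (h : CP J p) {g : Sy κ} (hg : Cm J p g) (ψ : Hd J p) (n : ℤ) :
    p (fc J n (mulC g ψ)) = fc J n (mulC g ψ) := by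
  rw [← fc_cS h.sk h.comm, mulC_comm (h' := g) (g' := cS p) fun θ => (hg θ).2, cS_coe h]

theorem Cm.tpz_eq_zero (h : CP J p) {g : Sy κ} (hg : Cm J p g) {ψ : Hd J p} :
    tpzL J p g ψ = 0 ↔ ∀ n, 0 ≤ n → fc J n (mulC g ψ) = 0 := by
  rw [Subtype.ext_iff, tpzL_coe, Submodule.coe_zero, PH_eq_zero h]
  simp only [hg.p_fc h]

/-- a subprojector -/
structure Sub (J p q : En κ) : Prop where
  hp : CP J p
  hq : CP J q
  pq : p * q = q

theorem Sub.qp (h : Sub J p q) : q * p = q := by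
  have := congrArg trn h.pq
  rwa [trn_mul, Sym.trn h.hp.sym, Sym.trn h.hq.sym] at this

/-- a quaternionic structure on the range of `q ≤ p` -/
structure Qt (J p q C : En κ) : Prop extends Sub J p q where
  anti : J * C = -(C * J)
  sq : C * C = -q
  sk : Skw C
  qC : q * C = C

/-- symbols with values in `Sp(1)` on the range of `q`, trivial on the range of `p - q` -/
structure Sp (J p q C : En κ) (g : Sy κ) : Prop extends Un J p g where
  hq : ∀ θ, q * g θ = g θ * q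
  hC : ∀ θ, C * g θ = g θ * C
  fix : ∀ θ, g θ * (p - q) = p - q

theorem Sp.tS (h : Qt J p q C) {g : Sy κ} (hg : Sp J p q C g) : Sp J p q C (tS g) where
  toUn := hg.toUn.tS h.hp
  hq θ := by
    have := congrArg trn (hg.hq θ)
    rw [trn_mul, trn_mul, Sym.trn h.hq.sym] at this
    exact this.symm
  hC θ := by
    have := congrArg trn (hg.hC θ)
    rw [trn_mul, trn_mul, Skw.trn h.sk, mul_neg, neg_mul, neg_inj] at this
    exact this.symm
  fix θ := by
    have e : p * (p - q) = p - q := by rw [mul_sub, h.hp.idem, h.pq]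
    rw [tS_apply, ← hg.fix θ, ← e, ← mul_assoc, ← mul_assoc, hg.l, ← mul_assoc, ← (hg.cm θ).2,
      mul_assoc, hg.fix, e]

theorem Sp.le_ker (h : Qt J p q C) {g : Sy κ} (hg : Sp J p q C g) :
    finrank ℝ (tpzL J p (Hol14.tS g)).ker ≤ finrank ℝ (tpzL J p g).ker := by
  have hg' := hg.tS h
  have hp := h.hp
  have := (hg.toUn.isFredholm hp).finite_ker
  have pC : p * C = C := by rw [← h.qC, ← mul_assoc, h.pq]
  let Φ : CL (L2c κ) (L2c κ) := mulC (eS J (-1)) ∘L mulC (cS C) ∘L mulC (Hol14.tS g)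
  have e1 : ∀ (n : ℤ) u, fc J n (mulC (eS J (-1)) (mulC (cS C) u)) = C (fc J (-(n + 1)) u) :=
    fun n u => by rw [fc_eS hp.toCJ, fc_cS_anti hp.sk h.anti, sub_neg_eq_add]
  have e2 : ∀ (n : ℤ) u, fc J n (Φ u) = C (fc J (-(n + 1)) (mulC (Hol14.tS g) u)) :=
    fun n u => e1 _ _
  have e3 : ∀ ψ : Hd J p, mulC g (mulC (Hol14.tS g) ψ) = ψ := fun ψ => by
    rw [mulC2 (k := g * Hol14.tS g) fun _ => rfl, ← cS_coe hp ψ,
      mulC2 (g := g * Hol14.tS g) (h := cS p) (k := cS p) hg.r]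
  have m1 : ∀ f : (tpzL J p (Hol14.tS g)).ker, Φ f.1.1 ∈ Hd J p := fun f =>
    (mem_Hd hp).2 ⟨fun n hn => by
      rw [e2, (hg'.cm.tpz_eq_zero hp).1 f.2 _ (by omega), map_zero],
      fun n => by rw [e2]; exact app pC _⟩
  have m2 : ∀ f : (tpzL J p (Hol14.tS g)).ker, tpzL J p g ⟨_, m1 f⟩ = 0 := fun f =>
    (hg.cm.tpz_eq_zero hp).2 fun n hn => by
      change fc J n (mulC g (mulC (eS J (-1)) (mulC (cS C) (mulC (Hol14.tS g) f.1.1)))) = 0
      rw [mulC_comm (h' := eS J (-1)) (g' := g) fun θ => (csE_comm (hg.cm θ).1 _).symm,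
        mulC_comm (g := g) (h' := cS C) (g' := g) fun θ => (hg.hC θ).symm, e3, e1,
        ((mem_Hd hp).1 f.1.2).1 _ (by omega), map_zero]
  let Ψ : (tpzL J p (Hol14.tS g)).ker →ₗ[ℝ] (tpzL J p g).ker :=
    { toFun := fun f => ⟨⟨_, m1 f⟩, m2 f⟩
      map_add' := fun f f' => Subtype.ext (Subtype.ext (map_add Φ _ _))
      map_smul' := fun r f => Subtype.ext (Subtype.ext (map_smul Φ _ _)) }
  refine LinearMap.finrank_le_finrank_of_injective (f := Ψ) ((injective_iff_map_eq_zero _).2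
    fun f hf => Subtype.ext (Subtype.ext (eq_zero_of_fc hp.toCJ fun n => ?_)))
  have h0 : Φ f.1.1 = 0 := congrArg (fun x => x.1.1) hf
  have h1 : mulC (cS q) (mulC (Hol14.tS g) f.1.1) = 0 := eq_zero_of_fc hp.toCJ fun k => by
    have := (e2 (-(k + 1)) _).symm.trans (congrArg (fc J (-(k + 1))) h0)
    rw [map_zero, show -(-(k + 1) + 1) = k by ring] at this
    rw [fc_cS hp.sk h.hq.comm, ← neg_eq_zero]
    exact (app h.sq _).symm.trans (by rw [mul_apply_eq_comp, this, map_zero])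
  have h2 : mulC (cS q) f.1.1 = 0 := by
    have := congrArg (mulC g) h1
    rwa [map_zero, mulC_comm (g := g) (h' := cS q) (g' := g) fun θ => (hg.hq θ).symm, e3] at this
  have hJ : J * (p - q) = (p - q) * J := by rw [mul_sub, sub_mul, hp.comm, h.hq.comm]
  rcases lt_or_ge n 0 with hn | hn
  · exact ((mem_Hd hp).1 f.1.2).1 n hn
  · have h3 := congrArg (p - q) ((hg'.cm.tpz_eq_zero hp).1 f.2 n hn)
    rw [map_zero, ← fc_cS hp.sk hJ, mulC2 (k := cS (p - q)) fun θ => (by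
      change (p - q) * _ = p - q
      rw [sub_mul, (hg'.cm θ).2, hg'.hq, ← mul_sub, hg'.fix]), fc_cS hp.sk hJ, sub_apply,
      ((mem_Hd hp).1 f.1.2).2, ← fc_cS hp.sk h.hq.comm, h2, map_zero, sub_zero] at h3
    exact h3

/-- **Index zero** -/
theorem Sp.fr (h : Qt J p q C) {g : Sy κ} (hg : Sp J p q C g) : Fr (tpzL J p g) 0 := by
  have h1 := hg.le_ker h
  have h2 := (hg.tS h).le_ker h
  rw [tS_tS] at h2
  refine (ind_adjoint (hg.toUn.isFredholm h.hp)).cast ?_
  rw [adjoint_tpzL]; omega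

/-! ### scalar symbols -/

/-- the rank of a projector -/
abbrev rk (p : En κ) : ℕ := finrank ℝ p.range

theorem un_fS (h : CP J p) {φ : C(UnitAddCircle, ℂ)} (hφ : ∀ θ, ‖φ θ‖ = 1) : Un J p (fS J φ) where
  cm := cm_fS h φ
  l θ := by rw [fS_apply, trn_csE h.sk, ← csE_mul h.sq, Complex.conj_mul', hφ]; simp
  r θ := by rw [fS_apply, trn_csE h.sk, ← csE_mul h.sq, Complex.mul_conj', hφ]; simp

theorem un_eS (h : CP J p) (n : ℤ) : Un J p (eS J n) := un_fS h fun _ => Circle.norm_coe _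

theorem fr_back (h : CP J p) : Fr (tpzL J p (eS J (-1))) (rk p) := by
  have hF := Fr.of ((un_eS h (-1)).isFredholm h)
  have hs : Surjective (tpzL J p (eS J (-1))) := fun ψ => by
    refine ⟨⟨mulC (eS J 1) ψ, (mem_Hd h).2 ⟨fun n hn => ?_, (cm_fS h _).p_fc h ψ⟩⟩, Subtype.ext ?_⟩
    · rw [fc_eS h.toCJ, ((mem_Hd h).1 ψ.2).1 _ (by omega)]
    · rw [tpzL_coe, ← mulC_mul, ← eS_add h.sq, neg_add_cancel, eS_zero, mulC_one, PH_coe]
  refine hF.cast ((hF.finrank_ker hs).symm.trans (congrArg _ ?_))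
  have m0 : ∀ v : p.range, p v = v := by rintro ⟨_, v, rfl⟩; exact h.pp v
  let Ψ : p.range →ₗ[ℝ] (tpzL J p (eS J (-1))).ker :=
    { toFun := fun v => ⟨⟨md J 0 v, md_mem le_rfl (m0 v)⟩, ((cm_fS h _).tpz_eq_zero h).2 fun n hn => by
        rw [fc_eS h.toCJ, fc_md h.toCJ, if_neg (by omega)]⟩
      map_add' := fun f f' => Subtype.ext (Subtype.ext (map_add (md J 0) _ _))
      map_smul' := fun r f => Subtype.ext (Subtype.ext (map_smul (md J 0) _ _)) }
  refine (LinearEquiv.ofBijective Ψ ⟨(injective_iff_map_eq_zero _).2 fun v hv => ?_,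
    fun f => ⟨⟨fc J 0 f.1.1, fc J 0 f.1.1, ((mem_Hd h).1 f.1.2).2 0⟩, ?_⟩⟩).finrank_eq.symm
  · have : md J 0 v = 0 := congrArg (fun x => x.1.1) hv
    exact Subtype.ext (norm_eq_zero.1 (by rw [← norm_md h.toCJ 0, this, norm_zero]))
  · refine Subtype.ext (Subtype.ext (ext_fc h.toCJ fun n => ?_))
    change fc J n (md J 0 (fc J 0 f.1.1)) = _
    rw [fc_md h.toCJ]
    rcases lt_trichotomy n 0 with hn | rfl | hn
    · rw [if_neg hn.ne, ((mem_Hd h).1 f.1.2).1 n hn]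
    · rfl
    · have := ((cm_fS h _).tpz_eq_zero h).1 f.2 (n - 1) (by omega)
      rw [fc_eS h.toCJ, sub_neg_eq_add, sub_add_cancel] at this
      rw [if_neg hn.ne', this]

theorem fr_one : Fr (tpzL J p 1) 0 := Fr.id.congr tpzL_one

theorem fr_eS (h : CP J p) (k : ℤ) : Fr (tpzL J p (eS J k)) (-k * rk p) := by
  have st : ∀ k : ℤ, Fr (tpzL J p (eS J (-1 + k))) (rk p + Fred93.ind (tpzL J p (eS J k))) :=
    fun k => eS_add h.sq (-1) k ▸ fr_mul h (cm_fS h _) (fr_back h) (.of ((un_eS h k).isFredholm h))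
  induction k using Int.induction_on with
  | zero => rw [eS_zero]; exact fr_one.cast (by simp)
  | succ k ih =>
    have := st (k + 1)
    rw [show -1 + ((k : ℤ) + 1) = k by ring] at this
    exact (Fr.of ((un_eS h _).isFredholm h)).cast (by have := this.unique ih; linarith)
  | pred k ih =>
    have := st (-k)
    rw [show -1 + -(k : ℤ) = -k - 1 by ring, ih.2] at this
    exact this.cast (by ring)

/-- the symbol `exp (i ψ)` -/
def exS (ψ : C(UnitAddCircle, ℝ)) : C(UnitAddCircle, ℂ) :=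
  ⟨fun θ => Complex.exp (ψ θ * Complex.I), by fun_prop⟩

theorem norm_exS (ψ : C(UnitAddCircle, ℝ)) (θ : UnitAddCircle) : ‖exS ψ θ‖ = 1 :=
  Complex.norm_exp_ofReal_mul_I _

theorem fr_exS (h : CP J p) (ψ : C(UnitAddCircle, ℝ)) : Fr (tpzL J p (fS J (exS ψ))) 0 := by
  have hc : Continuous fun t : ℝ => exS (t • ψ) :=
    ContinuousMap.continuous_of_continuous_uncurry _ (by
      change Continuous fun x : ℝ × UnitAddCircle => Complex.exp (((x.1 * ψ x.2 : ℝ) : ℂ) * Complex.I)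
      fun_prop)
  have := Fr.of_path (L := fun t : ℝ => tpzL J p (fS J (exS (t • ψ))))
    ((tpzL J p).continuous.comp ((fS J).continuous.comp hc)).continuousOn
    (fun t _ => (un_fS h (norm_exS _)).isFredholm h) (n := 0) (by
      rw [show exS ((0 : ℝ) • ψ) = 1 from ContinuousMap.ext fun θ => by simp [exS], fS_one]
      exact fr_one)
  simpa using this

/-- **The index of a scalar symbol of winding number `k`** -/
theorem fr_wind (h : CP J p) (k : ℤ) (ψ : C(UnitAddCircle, ℝ)) {g : Sy κ}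
    (hg : ∀ θ, g θ * p = csE J (fourier k θ * exS ψ θ) * p) : Fr (tpzL J p g) (-k * rk p) := by
  rw [tpzL_congr h (g' := eS J k * fS J (exS ψ)) fun θ => by rw [hg, csE_mul h.sq]; rfl]
  exact (fr_mul h (cm_fS h _) (fr_eS h k) (fr_exS h ψ)).cast (add_zero _)

/-! ### finite rank terms -/

theorem frk_coe (m n : ℕ) (Ξ : En κ) (ψ : Hd J p) :
    (frk J p m n Ξ ψ : L2c κ) = PH J p (md J m (Ξ (fc J n ψ))) := rfl

theorem frk_coe' (h : CP J p) (m n : ℕ) (Ξ : En κ) (ψ : Hd J p) :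
    (frk J p m n Ξ ψ : L2c κ) = md J m (p (Ξ (fc J n ψ))) := by
  rw [frk_coe, PH_md h, if_pos (by positivity)]

theorem cpt_frk (m n : ℕ) (Ξ : En κ) : IsCompactOperator (frk J p m n Ξ) :=
  cpt_fin ((Hd J p).orthogonalProjectionOnto ∘L md J m) (Ξ ∘L fc J n ∘L (Hd J p).subtypeL)

theorem norm_fc (h : CJ J) (n : ℤ) (u : L2c κ) : ‖fc J n u‖ ≤ ‖u‖ := by
  have h1 := inner_fc (J := J) n u (fc J n u)
  have h2 := real_inner_le_norm (md J n (fc J n u)) u
  rw [← h1, real_inner_self_eq_norm_sq, norm_md h] at h2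
  rcases (norm_nonneg (fc J n u)).eq_or_lt with h0 | h0
  · rw [← h0]; positivity
  · nlinarith

theorem norm_frk (h : CJ J) (m n : ℕ) (Ξ : En κ) : ‖frk J p m n Ξ‖ ≤ ‖Ξ‖ :=
  ContinuousLinearMap.opNorm_le_bound _ (norm_nonneg Ξ) fun ψ =>
    ((Hd J p).norm_starProjection_apply_le _).trans (by
      change ‖md J m (Ξ (fc J n ψ))‖ ≤ _
      rw [norm_md h]
      exact (Ξ.le_opNorm _).trans (by gcongr; exact norm_fc h n ψ))

/-- the finite rank terms as a linear map -/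
def frkL (J p : En κ) (m n : ℕ) : CL (En κ) (CL (Hd J p) (Hd J p)) :=
  LinearMap.toContinuousLinearMap
    { toFun := frk J p m n
      map_add' := fun S T => by
        simp only [frk, ContinuousLinearMap.add_comp, ContinuousLinearMap.comp_add, cpr_add]
      map_smul' := fun r T => by
        simp only [frk, ContinuousLinearMap.smul_comp, ContinuousLinearMap.comp_smul, cpr_smul,
          RingHom.id_apply] }

theorem frkL_apply (m n : ℕ) (Ξ : En κ) : frkL J p m n Ξ = frk J p m n Ξ := rfl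

theorem exists_fc_ne (h : CP J p) {ψ : Hd J p} (hψ : ψ ≠ 0) : ∃ n : ℕ, fc J n ψ ≠ 0 := by
  by_contra hn
  refine hψ (Subtype.ext (eq_zero_of_fc h.toCJ fun n => ?_))
  rcases lt_or_ge n 0 with h0 | h0
  · exact ((mem_Hd h).1 ψ.2).1 n h0
  · lift n to ℕ using h0
    exact not_not.1 fun h => hn ⟨n, h⟩

/-- **Density**: a vector orthogonal to all terms has coefficients orthogonal to all `Ξ ψ̂(n)` -/
theorem orth_frk (h : CP J p) {m n : ℕ} {Ξ : En κ} {ψ χ : Hd J p} :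
    ⟪frk J p m n Ξ ψ, χ⟫_ℝ = ⟪Ξ (fc J n ψ), fc J m χ⟫_ℝ := by
  rw [Submodule.coe_inner, frk_coe' h, ← inner_fc, h.sym, ((mem_Hd h).1 χ.2).2]

theorem eq_zero_of_orth (h : Sub J p q) {X : Set (En κ)} {ψ χ : Hd J p} {n : ℕ}
    (hX : ∀ w, (∀ Ξ ∈ X, ⟪Ξ (fc J n ψ), w⟫_ℝ = 0) → q w = 0)
    (hχ : ∀ Ξ ∈ X, ∀ m, ⟪frk J p m n Ξ ψ, χ⟫_ℝ = 0) : mulC (cS q) χ = 0 :=
  eq_zero_of_fc h.hp.toCJ fun k => by
    rw [fc_cS h.hp.sk h.hq.comm]
    rcases lt_or_ge k 0 with h0 | h0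
    · rw [((mem_Hd h.hp).1 χ.2).1 k h0, map_zero]
    · lift k to ℕ using h0
      exact hX _ fun Ξ hΞ => (orth_frk h.hp).symm.trans (hχ Ξ hΞ k)

/-! ### compactness -/

/-- normalised kernel elements of operators converging to a Fredholm operator converge -/
theorem exists_lim_ker {H H' α : Type} [NormedAddCommGroup H] [NormedSpace ℝ H] [CompleteSpace H]
    [NormedAddCommGroup H'] [NormedSpace ℝ H'] [CompleteSpace H'] {L : CL H H'} (hL : L.IsFredholm)
    (𝒰 : Ultrafilter α) {A : α → CL H H'} (hA : Tendsto A 𝒰 (𝓝 L)) {ψ : α → H}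
    (h1 : ∀ᶠ i in 𝒰, ‖ψ i‖ = 1) (h0 : ∀ᶠ i in 𝒰, A i (ψ i) = 0) :
    ∃ χ, Tendsto ψ 𝒰 (𝓝 χ) ∧ ‖χ‖ = 1 ∧ L χ = 0 := by
  obtain ⟨π, C, hC, hπ, hE⟩ := Fred93.exists_est hL
  have := hL.finite_ker
  have : ProperSpace L.ker := FiniteDimensional.proper_real _
  obtain ⟨χ, -, hχ⟩ := (isCompact_closedBall (0 : L.ker) ‖π‖).ultrafilter_le_nhds
    (𝒰.map fun i => π (ψ i)) (by
      rw [le_principal_iff, Ultrafilter.coe_map, mem_map]
      filter_upwards [h1] with i hi
      simpa [hi] using π.le_opNorm (ψ i))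
  have t1 : Tendsto (fun i => L (ψ i)) 𝒰 (𝓝 0) := by
    refine squeeze_zero_norm' (a := fun i => ‖A i - L‖) ?_ (tendsto_iff_norm_sub_tendsto_zero.1 hA)
    filter_upwards [h1, h0] with i a b
    simpa [a, b] using (A i - L).le_opNorm (ψ i)
  have t2 : Tendsto ψ 𝒰 (𝓝 χ.1) := by
    refine tendsto_iff_norm_sub_tendsto_zero.2 (squeeze_zero (fun _ => norm_nonneg _)
      (fun i => hE (ψ i - χ.1)) ?_)
    have : L χ.1 = 0 := χ.2
    simp only [map_sub, this, sub_zero, hπ]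
    simpa using (t1.norm.add (tendsto_iff_norm_sub_tendsto_zero.1 hχ)).const_mul C
  exact ⟨χ, t2, tendsto_nhds_unique t2.norm (tendsto_const_nhds.congr' (h1.mono fun _ h => h.symm)),
    χ.2⟩

end Crest.Agent.X212.Hol14
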