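import Crest.Agent.X212.An.Cut
import Crest.Agent.X212.Wz78.Hs

/-!
# Row 212, Toeplitz cut: multiplication operators, modes, Fourier coefficients, Hardy projector
-/

set_option autoImplicit false
set_option linter.unusedSectionVars false
noncomputable section
open scoped Topology InnerProductSpace ENNReal
open MeasureTheory Set Function Filter

namespace Crest.Agent.X212.Hol14
open An Wz78

variable {κ : Type} [Fintype κ] [DecidableEq κ]

/-- continuous symbols -/
abbrev Sy (κ : Type) [Fintype κ] : Type := C(UnitAddCircle, En κ)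

theorem cm_coe {X Y : Type} [TopologicalSpace X] [TopologicalSpace Y] [Zero Y] (g : C(X, Y)) :
    cm g = g := by rw [cm, dif_pos g.continuous]; rfl

theorem cm_apply {X Y : Type} [TopologicalSpace X] [TopologicalSpace Y] [Zero Y] {g : X → Y}
    (h : Continuous g) (x : X) : cm g x = g x := by rw [cm, dif_pos h]; rfl

theorem mulC_ae (g : Sy κ) (f : L2c κ) : mulC g f =ᵐ[μc] fun θ => g θ (f θ) := by
  refine (ContinuousLinearMap.coeFn_holder (ContinuousLinearMap.id ℝ (En κ))
    (ContinuousMap.toLp ∞ μc ℝ g) f).trans ?_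
  filter_upwards [ContinuousMap.coeFn_toLp (p := ∞) (𝕜 := ℝ) μc g] with θ h
  rw [h]; rfl

theorem mulC_mul (g h : Sy κ) (f : L2c κ) : mulC (g * h) f = mulC g (mulC h f) := Lp.ext <| by
  filter_upwards [mulC_ae (g * h) f, mulC_ae g (mulC h f), mulC_ae h f] with θ h1 h2 h3
  rw [h1, h2, h3]; rfl

theorem mulC_one (f : L2c κ) : mulC 1 f = f := Lp.ext <| by
  filter_upwards [mulC_ae 1 f] with θ h1
  rw [h1]; rfl

theorem norm_mulC (g : Sy κ) (f : L2c κ) : ‖mulC g f‖ ≤ ‖g‖ * ‖f‖ := by
  refine Lp.norm_le_mul_norm_of_ae_le_mul ?_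
  filter_upwards [mulC_ae g f] with θ h
  rw [h]
  exact ((g θ).le_opNorm _).trans (by gcongr; exact g.norm_coe_le_norm θ)

/-- the pointwise transpose -/
def tS (g : Sy κ) : Sy κ := ⟨fun θ => trn (g θ), ContinuousLinearMap.adjoint.continuous.comp g.2⟩

theorem tS_apply (g : Sy κ) (θ : UnitAddCircle) : tS g θ = trn (g θ) := rfl

theorem tS_tS (g : Sy κ) : tS (tS g) = g :=
  ContinuousMap.ext fun _ => ContinuousLinearMap.adjoint_adjoint _

theorem inner_mulC (g : Sy κ) (f h : L2c κ) : ⟪mulC g f, h⟫_ℝ = ⟪f, mulC (tS g) h⟫_ℝ := by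
  rw [L2.inner_def, L2.inner_def]
  refine integral_congr_ae ?_
  filter_upwards [mulC_ae g f, mulC_ae (tS g) h] with θ h1 h2
  rw [h1, h2, tS_apply, ContinuousLinearMap.adjoint_inner_right]

/-- constant symbols -/
abbrev cS (T : En κ) : Sy κ := ContinuousMap.const _ T

theorem mulC_const {κ' : Type} [Fintype κ'] (T : CL (Eu κ) (Eu κ')) (f : L2c κ) :
    T.compLpL 2 μc f =ᵐ[μc] fun θ => T (f θ) := T.coeFn_compLpL f

theorem mulC_cS (T : En κ) (f : L2c κ) : mulC (cS T) f = T.compLpL 2 μc f := Lp.ext <| by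
  filter_upwards [mulC_ae (cS T) f, mulC_const T f] with θ h1 h2
  rw [h1, h2]; rfl

/-! ### complex scalars -/

/-- an orthogonal complex structure -/
structure CJ (J : En κ) : Prop where
  sq : J * J = -1
  sk : Skw J

/-- a complex orthogonal projector -/
structure CP (J p : En κ) : Prop extends CJ J where
  sym : Sym p
  idem : p * p = p
  comm : J * p = p * J

variable {J p T : En κ}

/-- `csE` as a linear map -/
def csL (J : En κ) : CL ℂ (En κ) :=
  Complex.reCLM.smulRight 1 + Complex.imCLM.smulRight J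

theorem csL_apply (c : ℂ) : csL J c = csE J c := rfl

theorem continuous_csE : Continuous (csE J) := (csL J).continuous

theorem csE_apply (c : ℂ) (v : Eu κ) : csE J c v = cs J c v := rfl

@[simp] theorem csE_one : csE J 1 = 1 := by simp [csE]
@[simp] theorem csE_zero : csE J 0 = 0 := by simp [csE]
@[simp] theorem csE_I : csE J Complex.I = J := by simp [csE]
theorem csE_real (r : ℝ) : csE J r = r • (1 : En κ) := by simp [csE]
theorem csE_add (a b : ℂ) : csE J (a + b) = csE J a + csE J b := map_add (csL J) a b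

theorem csE_mul (h : J * J = -1) (a b : ℂ) : csE J (a * b) = csE J a * csE J b := by
  simp only [csE, Complex.mul_re, Complex.mul_im, add_mul, mul_add, smul_mul_assoc, mul_smul_comm,
    one_mul, mul_one, h]
  module

theorem csE_comm (h : J * T = T * J) (a : ℂ) : csE J a * T = T * csE J a := by
  simp only [csE, add_mul, mul_add, smul_mul_assoc, mul_smul_comm, one_mul, mul_one, h]

theorem csE_anti (h : J * T = -(T * J)) (a : ℂ) :
    csE J a * T = T * csE J (starRingEnd ℂ a) := by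
  simp only [csE, add_mul, mul_add, smul_mul_assoc, mul_smul_comm, one_mul, mul_one, h,
    Complex.conj_re, Complex.conj_im, neg_smul, smul_neg, mul_neg]

theorem trn_csE (h : Skw J) (a : ℂ) : trn (csE J a) = csE J (starRingEnd ℂ a) := by
  have h1 : trn (1 : En κ) = 1 := ContinuousLinearMap.adjoint_id
  simp only [csE, map_add, map_smul, h1, Skw.trn h, Complex.conj_re, Complex.conj_im, neg_smul,
    smul_neg]

/-- complex functions as symbols -/
def fS (J : En κ) : CL C(UnitAddCircle, ℂ) (Sy κ) := (csL J).compLeftContinuous ℝ UnitAddCircle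

theorem fS_apply (φ : C(UnitAddCircle, ℂ)) (θ : UnitAddCircle) : fS J φ θ = csE J (φ θ) := rfl

theorem fS_mul (h : J * J = -1) (φ ψ : C(UnitAddCircle, ℂ)) : fS J (φ * ψ) = fS J φ * fS J ψ :=
  ContinuousMap.ext fun _ => csE_mul h _ _

theorem fS_one : fS J 1 = 1 := ContinuousMap.ext fun _ => csE_one

/-- the symbol `e^{2πinθ}` -/
abbrev eS (J : En κ) (n : ℤ) : Sy κ := fS J (fourier n)

theorem eS_add (h : J * J = -1) (m n : ℤ) : eS J (m + n) = eS J m * eS J n :=
  ContinuousMap.ext fun θ => by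
    rw [fS_apply, fourier_add, csE_mul h]; rfl

theorem eS_zero : eS J 0 = 1 := ContinuousMap.ext fun θ => by
  rw [fS_apply, fourier_zero, csE_one]; rfl

theorem tS_eS (h : Skw J) (n : ℤ) : tS (eS J n) = eS J (-n) := ContinuousMap.ext fun θ => by
  rw [tS_apply, fS_apply, fS_apply, trn_csE h, fourier_neg]

theorem fS_cS (h : J * T = T * J) (φ : C(UnitAddCircle, ℂ)) : fS J φ * cS T = cS T * fS J φ :=
  ContinuousMap.ext fun _ => csE_comm h _

theorem eS_cS_anti (h : J * T = -(T * J)) (n : ℤ) : eS J n * cS T = cS T * eS J (-n) :=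
  ContinuousMap.ext fun θ => by
    change csE J _ * T = T * csE J _
    rw [csE_anti h, fourier_neg]

/-! ### modes -/

/-- constants -/
abbrev kL : CL (Eu κ) (L2c κ) := Lp.constL 2 μc ℝ

theorem kL_ae (v : Eu κ) : kL v =ᵐ[μc] fun _ => v := Lp.coeFn_const 2 μc v

theorem md_eq (n : ℤ) (v : Eu κ) : md J n v = mulC (eS J n) (kL v) := by
  have : (cm fun θ => csE J (fourier n θ)) = eS J n := cm_coe (eS J n)
  rw [md, this]; rfl

theorem cS_kL (T : En κ) (v : Eu κ) : mulC (cS T) (kL v) = kL (T v) := Lp.ext <| by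
  filter_upwards [mulC_ae (cS T) (kL v), kL_ae v, kL_ae (T v)] with θ h1 h2 h3
  rw [h1, h2, h3]; rfl

theorem eS_md (h : J * J = -1) (k n : ℤ) (v : Eu κ) : mulC (eS J k) (md J n v) = md J (n + k) v := by
  rw [md_eq, md_eq, ← mulC_mul, ← eS_add h, add_comm]

theorem cS_md (h : J * T = T * J) (n : ℤ) (v : Eu κ) : mulC (cS T) (md J n v) = md J n (T v) := by
  rw [md_eq, md_eq, ← mulC_mul, ← fS_cS h, mulC_mul, cS_kL]

theorem cS_md_anti (h : J * T = -(T * J)) (n : ℤ) (v : Eu κ) :
    mulC (cS T) (md J n v) = md J (-n) (T v) := by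
  rw [md_eq, md_eq, ← mulC_mul, ← cS_kL, ← mulC_mul, eS_cS_anti h, neg_neg]

theorem inner_kL_md (n : ℤ) (v w : Eu κ) : ⟪kL v, md J n w⟫_ℝ = if n = 0 then ⟪v, w⟫_ℝ else 0 := by
  have h1 : ⟪kL v, md J n w⟫_ℝ = ∫ θ, ⟪v, csL J (fourier n θ) w⟫_ℝ ∂μc := by
    rw [L2.inner_def, md_eq]
    refine integral_congr_ae ?_
    filter_upwards [mulC_ae (eS J n) (kL w), kL_ae v, kL_ae w] with θ h1 h2 h3
    rw [h1, h2, h3]; rfl
  let L : CL ℂ ℝ := innerSL ℝ v ∘L ContinuousLinearMap.apply ℝ (Eu κ) w ∘L csL J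
  have h2 := L.integral_comp_comm (μ := μc) (φ := fun θ => fourier n θ)
    ((fourier n).continuous.integrable_of_hasCompactSupport (HasCompactSupport.of_compactSpace _))
  refine h1.trans (h2.trans ?_)
  split_ifs with h
  · subst h
    simp only [fourier_zero, integral_const, probReal_univ, one_smul]
    change ⟪v, csE J 1 w⟫_ℝ = _
    rw [csE_one]; rfl
  · rw [integral_eq_zero_of_add_right_eq_neg (fourier_add_half_inv_index h one_pos), map_zero]

theorem inner_fc (n : ℤ) (u : L2c κ) (v : Eu κ) : ⟪v, fc J n u⟫_ℝ = ⟪md J n v, u⟫_ℝ :=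
  ContinuousLinearMap.adjoint_inner_right _ _ _

theorem fc_md (h : CJ J) (n m : ℤ) (w : Eu κ) : fc J n (md J m w) = if n = m then w else 0 := by
  refine ext_inner_left ℝ fun v => ?_
  rw [inner_fc, md_eq, inner_mulC, tS_eS h.sk, eS_md h.sq, inner_kL_md]
  by_cases e : n = m
  · simp [e]
  · rw [if_neg (by omega), if_neg e, inner_zero_right]

theorem norm_md (h : CJ J) (n : ℤ) (v : Eu κ) : ‖md J n v‖ = ‖v‖ := by
  have := inner_fc (J := J) n (md J n v) v
  rw [fc_md h, if_pos rfl, real_inner_self_eq_norm_sq, real_inner_self_eq_norm_sq] at this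
  exact (pow_left_inj₀ (norm_nonneg _) (norm_nonneg _) two_ne_zero).1 this.symm

theorem fc_eS (h : CJ J) (k n : ℤ) (u : L2c κ) : fc J n (mulC (eS J k) u) = fc J (n - k) u :=
  ext_inner_left ℝ fun v => by
    rw [inner_fc, inner_fc, real_inner_comm, inner_mulC, tS_eS h.sk, eS_md h.sq, real_inner_comm,
      sub_eq_add_neg]

theorem trn_comm (hJ : Skw J) (h : J * T = T * J) : J * trn T = trn T * J := by
  have := congrArg trn h
  rw [trn_mul, trn_mul, Skw.trn hJ, mul_neg, neg_mul, neg_inj] at this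
  exact this.symm

theorem trn_anti (hJ : Skw J) (h : J * T = -(T * J)) : J * trn T = -(trn T * J) := by
  have : trn (J * T) = -trn (T * J) := by rw [h]; exact map_neg ContinuousLinearMap.adjoint _
  rw [trn_mul, trn_mul, Skw.trn hJ, mul_neg, neg_mul, neg_neg] at this
  exact this.symm

theorem fc_cS (hJ : Skw J) (h : J * T = T * J) (n : ℤ) (u : L2c κ) :
    fc J n (mulC (cS T) u) = T (fc J n u) := ext_inner_left ℝ fun v => by
  rw [inner_fc, real_inner_comm, inner_mulC, show tS (cS T) = cS (trn T) from rfl,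
    cS_md (trn_comm hJ h), real_inner_comm, ← inner_fc, ContinuousLinearMap.adjoint_inner_left]

theorem fc_cS_anti (hJ : Skw J) (h : J * T = -(T * J)) (n : ℤ) (u : L2c κ) :
    fc J n (mulC (cS T) u) = T (fc J (-n) u) := ext_inner_left ℝ fun v => by
  rw [inner_fc, real_inner_comm, inner_mulC, show tS (cS T) = cS (trn T) from rfl,
    cS_md_anti (trn_anti hJ h), real_inner_comm, ← inner_fc, ContinuousLinearMap.adjoint_inner_left]

/-- induction on trigonometric polynomials -/
theorem four_ind {P : C(UnitAddCircle, ℂ) → Prop} (hc : IsClosed {φ | P φ}) (h0 : P 0)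
    (h1 : ∀ n, P (fourier n)) (ha : ∀ φ ψ, P φ → P ψ → P (φ + ψ))
    (hs : ∀ (c : ℂ) φ, P φ → P (c • φ)) (φ : C(UnitAddCircle, ℂ)) : P φ := by
  have h : φ ∈ (Submodule.span ℂ (range (@fourier 1))).topologicalClosure := by
    rw [span_fourier_closure_eq_top]; trivial
  refine closure_minimal (fun ψ hψ => ?_) hc h
  induction hψ using Submodule.span_induction with
  | mem x hx => obtain ⟨n, rfl⟩ := hx; exact h1 n
  | zero => exact h0
  | add x y _ _ hx hy => exact ha _ _ hx hy
  | smul c x _ hx => exact hs _ _ hx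

theorem fS_smul (h : J * J = -1) (c : ℂ) (φ : C(UnitAddCircle, ℂ)) :
    fS J (c • φ) = fS J φ * cS (csE J c) := ContinuousMap.ext fun θ => by
  change csE J (c * φ θ) = _
  rw [mul_comm, csE_mul h]; rfl

/-- a real function as a complex function -/
def ofR (φ : C(UnitAddCircle, ℝ)) : C(UnitAddCircle, ℂ) :=
  ⟨fun θ => (φ θ : ℂ), Complex.continuous_ofReal.comp φ.2⟩

/-- completeness of the modes -/
theorem eq_zero_of_fc (h : CJ J) {u : L2c κ} (hu : ∀ n, fc J n u = 0) : u = 0 := by
  have h1 : ∀ φ : C(UnitAddCircle, ℂ), ∀ v, ⟪mulC (fS J φ) (kL v), u⟫_ℝ = 0 := by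
    refine four_ind ?_ (fun v => by simp) (fun n v => ?_) (fun φ ψ h1 h2 v => ?_)
      fun c φ h1 v => ?_
    · simp only [ofPred_forall]
      exact isClosed_iInter fun v => isClosed_eq (by fun_prop) continuous_const
    · rw [← md_eq, ← inner_fc, hu, inner_zero_right]
    · rw [map_add, map_add, add_apply, inner_add_left, h1, h2, add_zero]
    · rw [fS_smul h.sq, mulC_mul, cS_kL, h1]
  have h2 : ∀ f : C(UnitAddCircle, Eu κ), ⟪ContinuousMap.toLp 2 μc ℝ f, u⟫_ℝ = 0 := fun f => by
    let φ : κ → C(UnitAddCircle, ℝ) := fun i => ⟨fun θ => f θ i, by fun_prop⟩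
    have : ContinuousMap.toLp 2 μc ℝ f =
        ∑ i, mulC (fS J (ofR (φ i))) (kL (EuclideanSpace.single i 1)) := by
      refine Lp.ext ?_
      filter_upwards [ContinuousMap.coeFn_toLp (p := 2) (𝕜 := ℝ) μc f, Lp.coeFn_finsetSum Finset.univ
        fun i => mulC (fS J (ofR (φ i))) (kL (EuclideanSpace.single i 1)),
        eventually_all.2 fun i => mulC_ae (fS J (ofR (φ i))) (kL (EuclideanSpace.single i 1)),
        eventually_all.2 fun i : κ => kL_ae (EuclideanSpace.single i (1 : ℝ))] with θ a b c d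
      rw [a, b, Finset.sum_apply, ← eu_sum (f θ)]
      refine Finset.sum_congr rfl fun i _ => ?_
      rw [c, d, fS_apply]
      change _ = csE J ((f θ i : ℝ) : ℂ) _
      rw [csE_real]; rfl
    rw [this, sum_inner]
    exact Finset.sum_eq_zero fun i _ => h1 _ _
  have h3 := (ContinuousMap.toLp_denseRange (Eu κ) μc ℝ (p := 2) (by simp)).induction_on
    (p := fun w => ⟪w, u⟫_ℝ = 0) u (isClosed_eq (by fun_prop) continuous_const) h2
  exact inner_self_eq_zero.1 h3

theorem ext_fc (h : CJ J) {u w : L2c κ} (hu : ∀ n, fc J n u = fc J n w) : u = w :=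
  sub_eq_zero.1 (eq_zero_of_fc h fun n => by rw [map_sub, hu, sub_self])

/-! ### the Hardy space -/

/-- the Hardy projector -/
abbrev PH (J p : En κ) : CL (L2c κ) (L2c κ) := (Hd J p).starProjection

theorem md_mem {n : ℤ} (hn : 0 ≤ n) {v : Eu κ} (hv : p v = v) : md J n v ∈ Hd J p :=
  Submodule.le_topologicalClosure _ (Submodule.subset_span (mem_iUnion.2
    ⟨n.toNat, v, hv, by rw [Int.toNat_of_nonneg hn]⟩))

theorem Hd_ind {P : L2c κ → Prop} (hc : IsClosed {u | P u}) (h0 : P 0)
    (h1 : ∀ n : ℕ, ∀ v, p v = v → P (md J n v)) (ha : ∀ u w, P u → P w → P (u + w))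
    (hs : ∀ (c : ℝ) u, P u → P (c • u)) {u : L2c κ} (hu : u ∈ Hd J p) : P u := by
  refine closure_minimal (fun ψ hψ => ?_) hc hu
  induction hψ using Submodule.span_induction with
  | mem x hx => obtain ⟨n, v, hv, rfl⟩ := mem_iUnion.1 hx; exact h1 n v hv
  | zero => exact h0
  | add x y _ _ hx hy => exact ha _ _ hx hy
  | smul c x _ hx => exact hs _ _ hx

theorem CP.pp (h : CP J p) (v : Eu κ) : p (p v) = p v := congrArg (fun T : En κ => T v) h.idem

theorem mem_orth (h : CP J p) {u : L2c κ} : u ∈ (Hd J p)ᗮ ↔ ∀ n, 0 ≤ n → p (fc J n u) = 0 := by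
  refine ⟨fun hu n hn => ext_inner_left ℝ fun v => ?_, fun hu w hw => ?_⟩
  · rw [← h.sym, inner_fc, hu _ (md_mem hn (h.pp v)), inner_zero_right]
  · refine Hd_ind (P := fun w => ⟪w, u⟫_ℝ = 0) (isClosed_eq (by fun_prop) continuous_const)
      (by simp) (fun n v hv => ?_) (fun a b ha hb => by rw [inner_add_left, ha, hb, add_zero])
      (fun c a ha => by rw [inner_smul_left, ha, mul_zero]) hw
    rw [← inner_fc, ← hv, h.sym, hu _ (by positivity), inner_zero_right]

theorem PH_md (h : CP J p) (n : ℤ) (v : Eu κ) :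
    PH J p (md J n v) = if 0 ≤ n then md J n (p v) else 0 := by
  refine Submodule.eq_starProjection_of_mem_orthogonal ?_ ((mem_orth h).2 fun m hm => ?_)
  · split_ifs with hn
    exacts [md_mem hn (h.pp v), zero_mem _]
  · split_ifs with hn
    · rw [← map_sub, fc_md h.toCJ]
      split_ifs
      · rw [map_sub, h.pp, sub_self]
      · exact map_zero _
    · rw [sub_zero, fc_md h.toCJ, if_neg (by omega), map_zero]

theorem fc_PH (h : CP J p) (n : ℤ) (u : L2c κ) :
    fc J n (PH J p u) = if 0 ≤ n then p (fc J n u) else 0 := ext_inner_left ℝ fun v => by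
  rw [inner_fc, ← Submodule.inner_starProjection_left_eq_right, PH_md h]
  split_ifs
  · rw [← inner_fc, h.sym]
  · simp

theorem mem_Hd (h : CP J p) {u : L2c κ} :
    u ∈ Hd J p ↔ (∀ n, n < 0 → fc J n u = 0) ∧ ∀ n, p (fc J n u) = fc J n u := by
  rw [← Submodule.starProjection_eq_self_iff]
  refine ⟨fun hu => ⟨fun n hn => ?_, fun n => ?_⟩, fun hu => ext_fc h.toCJ fun n => ?_⟩
  · rw [← hu, fc_PH h, if_neg (by omega)]
  · rw [← hu, fc_PH h]
    split_ifs
    exacts [h.pp _, map_zero _]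
  · rw [fc_PH h]
    split_ifs with hn
    exacts [hu.2 n, (hu.1 n (by omega)).symm]

theorem PH_eq_zero (h : CP J p) {u : L2c κ} : PH J p u = 0 ↔ ∀ n, 0 ≤ n → p (fc J n u) = 0 := by
  rw [← mem_orth h, Submodule.starProjection_apply_eq_zero_iff]

theorem PH_coe (ψ : Hd J p) : PH J p ψ = ψ := Submodule.starProjection_eq_self_iff.2 ψ.2

theorem cS_coe (h : CP J p) (ψ : Hd J p) : mulC (cS p) ψ = ψ := ext_fc h.toCJ fun n => by
  rw [fc_cS h.sk h.comm, ((mem_Hd h).1 ψ.2).2]

theorem cpr_coe (L : CL (L2c κ) (L2c κ)) (ψ : Hd J p) : (cpr J p L ψ : L2c κ) = PH J p (L ψ) := rfl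

end Crest.Agent.X212.Hol14
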