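import Crest.Agent.X212.Hol14.Sq
import Crest.Agent.X212.Cnt93.Pt

/-!
# Row 212, Toeplitz cut: pull-back of forms and connections to the plane; the flux
-/

set_option autoImplicit false
set_option linter.unusedSectionVars false
noncomputable section
open scoped Manifold ContDiff Topology InnerProductSpace
open Set Function Filter Finset

namespace Crest.Agent.X212.Hol14
open An Wz78 Crest.Agent.R208 Crest.Agent.R208.F

variable {E : Type} [NormedAddCommGroup E] [NormedSpace ℝ E] [FiniteDimensional ℝ E]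
  [MeasurableSpace E] [BorelSpace E]
  {HM : Type} [TopologicalSpace HM] {I : ModelWithCorners ℝ E HM} [I.Boundaryless]
  {M : Type} [TopologicalSpace M] [ChartedSpace HM M] [IsManifold I ∞ M]
  [MeasurableSpace M] [BorelSpace M] [SecondCountableTopology M] {ι : Type} [Fintype ι]
  {N N' : Type} [NormedAddCommGroup N] [NormedSpace ℝ N] [NormedAddCommGroup N'] [NormedSpace ℝ N']
  (F : Fr I M ι) (Γ : X2 → M) {u v y : X2}

/-- frame components of the partial derivatives -/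
def vf (v : X2) (a : ι) (y : X2) : ℝ := Num57.tl F (Γ y) a (mfderiv 𝓘(ℝ, X2) I Γ y v)

/-- pull-back of one-forms -/
def pb1 (α : ι → M → N) (v y : X2) : N := ∑ a, vf F Γ v a y • α a (Γ y)

/-- pull-back of two-forms -/
def pb2 (β : ι → ι → M → N) (y : X2) : N :=
  ∑ a, ∑ b, (vf F Γ e1 a y * vf F Γ e2 b y) • β a b (Γ y)

variable (I) in
/-- a two-form on the two partial derivatives -/
def dns (w : M → Ext E) (y : X2) : ℝ :=
  Num57.e2 (w (Γ y)) (mfderiv 𝓘(ℝ, X2) I Γ y e1) (mfderiv 𝓘(ℝ, X2) I Γ y e2)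

variable {F Γ} {α : ι → M → N} {β β' : ι → ι → M → N} {f : M → N}

theorem vf_sum : ∑ a, vf F Γ v a y • Num57.ee F (Γ y) a = mfderiv 𝓘(ℝ, X2) I Γ y v :=
  (Num57.cf F (Γ y)).ex _

theorem vf_sum' : ∑ a, vf F Γ v a y • F.e a (Γ y) = mfderiv 𝓘(ℝ, X2) I Γ y v :=
  (Num57.cf F (Γ y)).ex _

theorem pb2_congr (h : ∀ a b, β a b (Γ y) = β' a b (Γ y)) : pb2 F Γ β y = pb2 F Γ β' y := by
  simp only [pb2, h]

theorem pb2_clm (L : N →L[ℝ] N') : pb2 F Γ (fun a b x => L (β a b x)) y = L (pb2 F Γ β y) := by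
  simp only [pb2, map_sum, map_smul]

theorem dns_eq (w : M → Ext E) : dns I Γ w y = pb2 F Γ (Num57.k2 F w) y := by
  rw [dns, ← vf_sum (F := F), ← vf_sum (F := F), Num57.e2_vsum]
  simp only [Num57.e2_vsum', pb2, mul_sum, smul_eq_mul, mul_assoc, Num57.k2]

variable (hΓ : ContMDiff 𝓘(ℝ, X2) I ∞ Γ)
include hΓ

theorem cda (hf : SA I f (Γ y)) : ContDiffAt ℝ ∞ (fun y => f (Γ y)) y :=
  (ContMDiffAt.comp y hf (hΓ y)).contDiffAt

theorem cd_of (hf : ∀ y, SA I f (Γ y)) : Cd fun y => f (Γ y) :=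
  contDiff_iff_contDiffAt.2 fun y => cda hΓ (hf y)

theorem vf_line {c : ℝ → X2} {t : ℝ} (hc : HasDerivAt c v t) (a : ι) :
    Cnt93.vl F (fun s => Γ (c s)) t a = vf F Γ v a (c t) := by
  rw [Cnt93.vl, vf, show (fun s => Γ (c s)) = Γ ∘ c from rfl,
    (((hΓ _).mdifferentiableAt (by simp)).hasMFDerivAt.comp t hc.hasFDerivAt.hasMFDerivAt).mfderiv]
  exact congrArg (fun w => Num57.tl F _ a (mfderiv 𝓘(ℝ, X2) I Γ (c t) w)) (one_smul ℝ v)

theorem pd_comp (hf : MDifferentiableAt I 𝓘(ℝ, N) f (Γ y)) :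
    pd v (fun y => f (Γ y)) y = pb1 F Γ (fun a => F.D a f) v y := by
  have h2 : HasFDerivAt (𝕜 := ℝ) (E := X2) (F := N) (fun t => f (Γ t)) _ y :=
    (hf.hasMFDerivAt.comp y ((hΓ y).mdifferentiableAt (by simp)).hasMFDerivAt).hasFDerivAt
  rw [pd, h2.fderiv]
  show mfderiv I 𝓘(ℝ, N) f (Γ y) (mfderiv 𝓘(ℝ, X2) I Γ y v) = _
  rw [← vf_sum' (F := F), map_sum]
  exact sum_congr rfl fun a _ => map_smul _ _ _

theorem cd_vf (v : X2) (a : ι) : Cd (vf F Γ v a) := by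
  let L : Ext X2 →L[ℝ] ℝ := LinearMap.toContinuousLinearMap
    { toFun := fun w => Num57.e1 w v
      map_add' := fun _ _ => Num57.e1_add _ _ _
      map_smul' := fun _ _ => Num57.e1_smul _ _ _ }
  have e : vf F Γ v a = fun s => L (Dr59.pm 𝓘(ℝ, X2) I Γ (Num57.th F a) s) :=
    funext fun s => by
      show _ = Num57.e1 _ _
      rw [Dr59.pm_apply, Num57.th, pb_io, Num57.e1_io]
      rfl
  rw [e]
  exact contDiff_iff_contDiffAt.2 fun s => L.contDiff.contDiffAt.comp s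
    (Dr59.cAt_model.1 (Dr59.SmAt.pm (hΓ s) (Num57.smAt_th F a _)))

theorem cd_pb1 (h : ∀ a y, SA I (α a) (Γ y)) (v : X2) : Cd (pb1 F Γ α v) :=
  ContDiff.sum fun a _ => (cd_vf hΓ v a).smul (cd_of hΓ (h a))

theorem cd_pb2 (h : ∀ a b y, SA I (β a b) (Γ y)) : Cd (pb2 F Γ β) :=
  ContDiff.sum fun a _ => ContDiff.sum fun b _ =>
    ((cd_vf hΓ _ a).mul (cd_vf hΓ _ b)).smul (cd_of hΓ (h a b))

theorem pd_pb1 (h : ∀ a, SA I (α a) (Γ y)) : pd u (pb1 F Γ α v) y =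
    ∑ b, (pd u (vf F Γ v b) y • α b (Γ y) +
      vf F Γ v b y • ∑ a, vf F Γ u a y • F.D a (α b) (Γ y)) := by
  have d := fun a => (cda hΓ (h a)).differentiableAt (by simp)
  refine (pd_sum fun a => ((cd_vf hΓ v a).df y).smul (d a)).trans (sum_congr rfl fun b _ => ?_)
  exact (pd_smul ((cd_vf hΓ v b).df y) (d b)).trans (by rw [pd_comp (F := F) hΓ (h b).md]; rfl)

theorem d_pb1' (h : ∀ a, SA I (α a) (Γ y)) : pd e1 (pb1 F Γ α e2) y - pd e2 (pb1 F Γ α e1) y =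
    ∑ k, (pd e1 (vf F Γ e2 k) y - pd e2 (vf F Γ e1 k) y + pb2 F Γ (fun a b => F.c a b k) y) •
      α k (Γ y) + pb2 F Γ (d1 I F.e F.c α) y := by
  rw [pd_pb1 hΓ h, pd_pb1 hΓ h]
  simp only [pb2, d1, F.D_def, smul_sub, add_smul, sub_smul, sum_add_distrib, sum_sub_distrib,
    smul_sum, sum_smul, smul_smul, smul_eq_mul]
  rw [sum_comm (f := fun b a => (vf F Γ e2 b y * vf F Γ e1 a y) • _),
    sum_comm (f := fun k a => ∑ b, _ • α k (Γ y))]
  simp only [mul_comm (vf F Γ e2 _ y), sum_comm (f := fun k b => (_ * F.c _ b k _) • α k (Γ y))]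
  abel

/-- **`d` commutes with the pull-back** -/
theorem d_pb1 (h : ∀ a, SA I (α a) (Γ y))
    (hp : ∀ a, ∑ b, F.P a b (Γ y) • α b (Γ y) = α a (Γ y)) :
    pd e1 (pb1 F Γ α e2) y - pd e2 (pb1 F Γ α e1) y = pb2 F Γ (d1 I F.e F.c α) y := by
  rw [d_pb1' hΓ h, add_eq_right]
  generalize hw : (fun k => pd e1 (vf F Γ e2 k) y - pd e2 (vf F Γ e1 k) y +
    pb2 F Γ (fun a b => F.c a b k) y) = w
  have := sep F (Γ y) w fun f hf => by
    have h0 := hf.self_of_nhds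
    have e := d_pb1' (F := F) hΓ fun a => (frm F).sD a h0
    have e' : ∀ v, pb1 F Γ (fun a => Sob92.dv I (F.e a) f) v =ᶠ[𝓝 y] pd v fun y => f (Γ y) :=
      fun v => ((hΓ y).continuousAt.eventually hf).mono fun z hz => (pd_comp hΓ hz.md).symm
    rw [pb2_congr (β := d1 I F.e F.c _) (β' := fun _ _ _ => 0)
      fun a b => sub_eq_zero.2 ((frm F).br a b f _ h0), pd_congr (e' _), pd_congr (e' _),
      pd_comm (cda hΓ h0), sub_self] at e
    simp only [congrFun hw] at e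
    simpa [pb2] using e.symm
  simp only [congrFun hw]
  rw [sum_congr rfl fun k _ => congrArg (w k • ·) (hp k).symm]
  simp only [smul_sum, smul_smul]
  rw [sum_comm]
  simp only [← sum_smul, this, zero_smul, sum_const_zero]

variable {κ : Type} [Fintype κ] [DecidableEq κ] {W : ι → M → En κ} {T : M → En κ}

theorem cu_pb1 (h : ∀ a, SA I (W a) (Γ y))
    (hp : ∀ a, ∑ b, F.P a b (Γ y) • W b (Γ y) = W a (Γ y)) :
    cu (pb1 F Γ W e1) (pb1 F Γ W e2) y = pb2 F Γ (curv I F.e F.c W) y := by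
  rw [cu, d_pb1 hΓ h hp]
  simp only [pb1, pb2, d1, curv, sum_mul_sum, smul_mul_smul_comm]
  rw [sum_comm (f := fun b a => (vf F Γ e2 b y * vf F Γ e1 a y) • _)]
  simp only [← sum_sub_distrib, ← sum_add_distrib]
  exact sum_congr rfl fun a _ => sum_congr rfl fun b _ => by module

theorem cv_comp (hT : SA I T (Γ y)) : cv v (pb1 F Γ W v) (fun y => T (Γ y)) y =
    pb1 F Γ (fun a => nabE I F.e W a T) v y := by
  rw [cv, pd_comp (F := F) hΓ hT.md]
  simp only [pb1, nabE, F.D_def, sum_mul, mul_sum, smul_mul_assoc, mul_smul_comm, smul_add,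
    smul_sub, sum_add_distrib, sum_sub_distrib]

end Crest.Agent.X212.Hol14
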