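import Crest.Agent.X212.Hol14.Rep
import Crest.Agent.X212.Cut54.Crit
import Crest.Agent.X212.Std94.Gau

/-!
# Row 212, Toeplitz cut: the fibre `U` as a quaternionic line
-/

set_option autoImplicit false
set_option linter.unusedSectionVars false
noncomputable section
open scoped Manifold ContDiff Topology InnerProductSpace
open Set Function Module

namespace Crest.Agent.X212.Hol14
open An Wz78
open Cut54 (mu' i1 i2 i3 v1 v2 v3 cW sdT)

section ring
variable {𝔸 : Type*} [Ring 𝔸] [Algebra ℝ 𝔸] {e i j l J k X C : 𝔸} {n : ℝ}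

theorem key2 (h : Cut54.Qt e i j l J k) {u1 u2 u3 : ℝ} (hu : u1 * u1 + u2 * u2 + u3 * u3 = 1)
    (a1 a2 a3 b1 b2 b3 : ℝ) : ∃ c1 c2 c3 : ℝ, c1 * u1 + c2 * u2 + c3 * u3 = 0 ∧
    (e - J * (u1 • i + u2 • j + u3 • l)) * ((a1 • i + a2 • j + a3 • l) * k +
      (b1 • i + b2 • j + b3 • l) * (J * k)) * (e - J * (u1 • i + u2 • j + u3 • l)) =
    (c1 • i + c2 • j + c3 • l) * k * (e - J * (u1 • i + u2 • j + u3 • l)) := by
  have g : ∀ c1 c2 c3 : ℝ, (c1 • i + c2 • j + c3 • l) * k * (e - J * (u1 • i + u2 • j + u3 • l)) =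
      (c1 • i + c2 • j + c3 • l) * k + J * ((c2 * u3 - c3 * u2) • i + (c3 * u1 - c1 * u3) • j +
        (c1 * u2 - c2 * u1) • l) * k - (c1 * u1 + c2 * u2 + c3 * u3) • (J * (e * k)) :=
    fun _ _ _ => by
      simp only [mul_add, add_mul, mul_sub, mul_assoc, smul_mul_assoc, mul_smul_comm,
        h.ke, h.k1, h.k2, h.k3, mu' h.kJ, mu' h.J1, mu' h.J2, mu' h.J3, mu' h.f1, mu' h.f2,
        mu' h.f3, mu' h.m11, mu' h.m22, mu' h.m33, mu' h.m12, mu' h.m21, mu' h.m23, mu' h.m32,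
        mu' h.m31, mu' h.m13, mul_neg, neg_mul, neg_neg, smul_neg]
      module
  have z : ((1 + 1) * a1 - 2 * (a1 * u1 + a2 * u2 + a3 * u3) * u1 + 2 * (u2 * b3 - u3 * b2)) * u1 +
      ((1 + 1) * a2 - 2 * (a1 * u1 + a2 * u2 + a3 * u3) * u2 + 2 * (u3 * b1 - u1 * b3)) * u2 +
      ((1 + 1) * a3 - 2 * (a1 * u1 + a2 * u2 + a3 * u3) * u3 + 2 * (u1 * b2 - u2 * b1)) * u3 = 0 := by
    linear_combination (-2 * (a1 * u1 + a2 * u2 + a3 * u3)) * hu
  refine ⟨_, _, _, z, ?_⟩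
  rw [h.key _ _ _ _ _ _ _ _ _ 1 hu.symm _ rfl _ rfl, g, z, zero_smul, sub_zero]
  congr 3
  match_scalars
  · linear_combination (-2 * b1) * hu
  · linear_combination (-2 * b2) * hu
  · linear_combination (-2 * b3) * hu

/-- the local algebra of a cut -/
structure Lc (e J X C k : 𝔸) (n : ℝ) : Prop where
  ee : e * e = e
  eX : e * X = X
  Xe : X * e = X
  XX : X * X = -e
  eC : e * C = C
  Ce : C * e = C
  CC : C * C = -(n • e)
  XC : X * C = -(C * X)
  JJ : J * J = -1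
  Je : e * J = J * e
  XJ : X * J = J * X
  CJ : C * J = J * C
  kJ : k * J = -(J * k)
  ke : k * e = e * k
  kX : k * X = X * k
  kC : k * C = C * k
  kk : e * (k * k) = e

theorem lc_of (h : Cut54.Qt e i j l J k) (hk : e * (k * k) = e) {u1 u2 u3 c1 c2 c3 : ℝ}
    (hu : u1 * u1 + u2 * u2 + u3 * u3 = 1) (hc : c1 * u1 + c2 * u2 + c3 * u3 = 0) :
    Lc e J (u1 • i + u2 • j + u3 • l) (c1 • i + c2 • j + c3 • l) k (c1 ^ 2 + c2 ^ 2 + c3 ^ 2) := by
  have a : (u1 • i + u2 • j + u3 • l) * (c1 • i + c2 • j + c3 • l) =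
      -((c1 • i + c2 • j + c3 • l) * (u1 • i + u2 • j + u3 • l)) -
        (2 * (c1 * u1 + c2 * u2 + c3 * u3)) • e := by
    simp only [mul_add, add_mul, smul_mul_assoc, mul_smul_comm, h.m11, h.m22, h.m33, h.m12, h.m21,
      h.m23, h.m32, h.m31, h.m13]
    module
  rw [hc, mul_zero, zero_smul, sub_zero] at a
  refine ⟨h.ee, ?_, ?_, by rw [h.sq, sq, sq, sq, hu, one_smul], ?_, ?_, h.sq _ _ _, a, h.JJ, h.Je,
    ?_, ?_, h.kJ, h.ke, ?_, ?_, hk⟩ <;>
  simp only [mul_add, add_mul, smul_mul_assoc, mul_smul_comm, h.e1, h.e2, h.e3, h.f1, h.f2, h.f3,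
    h.J1, h.J2, h.J3, h.k1, h.k2, h.k3]

namespace Lc
variable (h : Lc e J X C k n) {π : 𝔸} (hπ : π = (1 / 2 : ℝ) • (e - J * X))
include h hπ

theorem pp : π * π = π := by
  simp only [hπ, mul_sub, sub_mul, mul_assoc, smul_mul_assoc, mul_smul_comm, h.ee, mu' h.Je, h.eX,
    h.Xe, mu' h.XJ, h.XX, mu' h.JJ, mul_neg, neg_mul, one_mul]
  module

theorem ep : e * π = π := by
  simp only [hπ, mul_sub, mul_assoc, mul_smul_comm, h.ee, mu' h.Je, h.eX]

theorem Jp : J * π = π * J := by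
  simp only [hπ, mul_sub, sub_mul, mul_assoc, smul_mul_assoc, mul_smul_comm, h.Je, h.XJ]

theorem pc : π * (C * k) = C * k * π := by
  simp only [hπ, mul_sub, sub_mul, mul_assoc, smul_mul_assoc, mul_smul_comm, mu' h.eC, h.ke,
    mu' h.Ce, mu' h.XC, mu' h.kJ, h.kX, mu' h.CJ, mul_neg, neg_mul]

theorem pq : π * (C * k * π) = C * k * π := by rw [← mul_assoc, h.pc hπ, mul_assoc, h.pp hπ]

theorem Jq : J * (C * k * π) = -(C * k * π * J) := by
  rw [mul_assoc _ π, ← h.Jp hπ]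
  simp only [mul_assoc, mu' h.kJ, mu' h.CJ, mul_neg, neg_mul, neg_neg]

theorem qq : C * k * π * (C * k * π) = -(n • π) := by
  rw [mul_assoc _ π, h.pq hπ]
  simp only [mul_assoc, mu' h.kC, mu' h.CC, neg_mul, smul_mul_assoc]
  rw [← mul_assoc k, ← mul_assoc e, h.kk, h.ep hπ]

end Lc

end ring

section lin
variable {κ : Type} [Fintype κ] [DecidableEq κ] {J p π C K T N : En κ}

theorem trn_add (S T : En κ) : trn (S + T) = trn S + trn T := map_add _ S T
theorem trn_sub (S T : En κ) : trn (S - T) = trn S - trn T := map_sub _ S T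
theorem trn_neg (S : En κ) : trn (-S) = -trn S := map_neg _ S
theorem trn_smul (r : ℝ) (S : En κ) : trn (r • S) = r • trn S := map_smul _ r S

theorem skw_of {A : En κ} (h : trn A = -A) : Skw A := fun v w => by
  rw [← ContinuousLinearMap.adjoint_inner_right]
  change ⟪v, trn A w⟫_ℝ = _
  rw [h, neg_apply, inner_neg_right]

theorem sym_of {A : En κ} (h : trn A = A) : Sym A := fun v w => by
  rw [← ContinuousLinearMap.adjoint_inner_right]
  change ⟪v, trn A w⟫_ℝ = _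
  rw [h]

theorem tr_zero {c : ℝ} (hc : c ≠ 0) (h : K * T = -(T * K)) (h' : T * (K * K) = c • T) :
    trE T = 0 := by
  have e := trE_comm K (T * K)
  rw [← mul_assoc, h, neg_mul, mul_assoc, h', map_neg, neg_eq_iff_add_eq_zero, ← two_mul, map_smul,
    smul_eq_mul] at e
  simpa [hc] using e

theorem rk_of (h : π * π = π) {n : ℕ} (ht : trE π = n) : rk π = n :=
  Std94.finrank_range_of_trace (fun w => app h w) ((trE_eq π).symm.trans ht)

/-- a four-dimensional space of operators without zero divisors acts transitively -/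
theorem trans4 {X : Type} [AddCommGroup X] [Module ℝ X] [FiniteDimensional ℝ X]
    (hX : finrank ℝ X = rk π) (L : X →ₗ[ℝ] En κ) {v : Eu κ} (hL : ∀ x, π (L x v) = L x v)
    (hi : ∀ x, L x v = 0 → x = 0) {w : Eu κ} (hw : π w = w) : ∃ x, L x v = w := by
  let f : X →ₗ[ℝ] π.range :=
    { toFun := fun x => ⟨L x v, L x v, hL x⟩
      map_add' := fun a b => Subtype.ext (by simp)
      map_smul' := fun a b => Subtype.ext (by simp) }
  obtain ⟨x, hx⟩ := (LinearMap.injective_iff_surjective_of_finrank_eq_finrank (f := f) hX).1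
    ((injective_iff_map_eq_zero _).2 fun x hx => hi x (congrArg Subtype.val hx)) ⟨w, w, hw⟩
  exact ⟨x, congrArg Subtype.val hx⟩

theorem Qt.Cq (h : Qt J p π C) : C * π = C := by
  have := congrArg trn h.qC
  rwa [trn_mul, Sym.trn h.hq.sym, Skw.trn h.sk, neg_mul, neg_inj] at this

/-- right quaternions -/
def rq (J C : En κ) (a b c d : ℝ) : En κ := a • 1 + b • J + c • C + d • (J * C)

theorem Qt.rq_sq (h : Qt J p π C) (a b c d : ℝ) :
    rq J C a (-b) (-c) (-d) * rq J C a b c d * π = (a ^ 2 + b ^ 2 + c ^ 2 + d ^ 2) • π := by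
  have CJ : C * J = -(J * C) := by rw [h.anti, neg_neg]
  simp only [rq, mul_add, add_mul, mul_assoc, smul_mul_assoc, mul_smul_comm, one_mul, mu' CJ,
    mu' h.hp.sq, h.Cq, h.sq, h.hq.idem, neg_mul, mul_neg, smul_neg, neg_neg]
  module

theorem Qt.q_rq (h : Qt J p π C) (a b c d : ℝ) : π * rq J C a b c d = rq J C a b c d * π := by
  simp only [rq, mul_add, add_mul, mul_assoc, smul_mul_assoc, mul_smul_comm, one_mul, mul_one,
    h.hq.comm.symm, h.Cq, h.qC, mu' h.hq.comm.symm]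

theorem Qt.trans (h : Qt J p π C) (h4 : rk π = 4) {v w : Eu κ} (hv : π v = v) (h0 : v ≠ 0)
    (hw : π w = w) : ∃ a b c d, rq J C a b c d v = w := by
  let L : (ℝ × ℝ × ℝ × ℝ) →ₗ[ℝ] En κ :=
    { toFun := fun x => rq J C x.1 x.2.1 x.2.2.1 x.2.2.2
      map_add' := fun _ _ => by simp only [rq, Prod.fst_add, Prod.snd_add]; module
      map_smul' := fun _ _ => by
        simp only [rq, Prod.smul_fst, Prod.smul_snd, RingHom.id_apply, smul_eq_mul]; module }
  have eL : ∀ x, L x = rq J C x.1 x.2.1 x.2.2.1 x.2.2.2 := fun _ => rfl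
  obtain ⟨x, hx⟩ := trans4 (by simp [h4]) L (v := v) (fun x => by
    rw [eL, ← mul_apply_eq_comp, h.q_rq, mul_apply_eq_comp, hv]) (fun ⟨a, b, c, d⟩ hx => by
      have e := app (h.rq_sq a b c d) v
      rw [mul_apply_eq_comp, mul_apply_eq_comp, hv, ← eL (a, b, c, d), hx, map_zero, smul_apply, hv,
        eq_comm, smul_eq_zero_iff_left h0] at e
      simp only [Prod.mk_eq_zero]
      refine ⟨?_, ?_, ?_, ?_⟩ <;> nlinarith [sq_nonneg a, sq_nonneg b, sq_nonneg c, sq_nonneg d]) hw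
  exact ⟨_, _, _, _, hx⟩

/-- a skew operator commuting with left and right quaternions vanishes -/
theorem Qt.comm_zero (h : Qt J p π C) (h4 : rk π = 4) {S : Set (En κ)}
    (hS : ∀ T ∈ S, J * T = T * J ∧ C * T = T * C ∧ N * T = T * N)
    (tr : ∀ v w, π v = v → v ≠ 0 → π w = w → ∃ r : ℝ, ∃ T ∈ S, w = r • v + T v)
    (hN : Skw N) (hJ : J * N = N * J) (hC : C * N = N * C) (hπ : π * N = N * π) : N * π = 0 := by
  refine ContinuousLinearMap.ext fun u => ?_
  have hv := h.hq.pp u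
  rw [mul_apply_eq_comp, zero_apply]
  generalize π u = v at hv
  rcases eq_or_ne v 0 with rfl | h0
  · exact map_zero N
  obtain ⟨a, b, c, d, e⟩ := h.trans h4 hv h0 (w := N v) ((app hπ v).trans (congrArg N hv))
  have e1 : N * π = rq J C a b c d * π := ContinuousLinearMap.ext fun w => by
    obtain ⟨r, T, hT, e2⟩ := tr v _ hv h0 (h.hq.pp w)
    obtain ⟨t1, t2, t3⟩ := hS T hT
    have : rq J C a b c d * T = T * rq J C a b c d := by
      simp only [rq, mul_add, add_mul, mul_assoc, smul_mul_assoc, mul_smul_comm, one_mul, mul_one,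
        t1, t2, mu' t1]
    rw [mul_apply_eq_comp, mul_apply_eq_comp, e2, map_add, map_add, map_smul, map_smul, e,
      ← mul_apply_eq_comp N, t3, ← mul_apply_eq_comp _ T, this, mul_apply_eq_comp,
      mul_apply_eq_comp, e]
  have CJ : C * J = -(J * C) := by rw [h.anti, neg_neg]
  have e2 : (4 : ℝ) • (N * π) = (4 * a) • π := by
    have : (4 : ℝ) • (N * π) = N * π - J * (N * π) * J - C * (N * π) * C -
        J * C * (N * π) * (J * C) := by
      simp only [mul_assoc, mu' hJ, mu' hC, h.hq.comm.symm, mu' h.hq.comm.symm, mu' CJ, h.qC, h.sq,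
        mu' h.hp.sq, mul_neg, neg_mul, one_mul, neg_neg]
      module
    rw [this, e1]
    simp only [rq, mul_add, add_mul, mul_assoc, smul_mul_assoc, mul_smul_comm, one_mul, mu' CJ, CJ,
      mu' h.hp.sq, h.Cq, h.qC, h.sq, h.hq.comm.symm, mu' h.hq.comm.symm, neg_mul, mul_neg,
      smul_neg, neg_neg]
    module
  have e3 : N v = a • v := smul_right_injective _ (four_ne_zero (α := ℝ)) (by
    simpa only [smul_apply, mul_apply_eq_comp, hv, mul_smul] using app e2 v)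
  have e4 := Skew.self hN v
  rw [e3, real_inner_smul_left, mul_eq_zero, inner_self_eq_zero] at e4
  rw [e3, e4.resolve_right h0, zero_smul]

end lin

variable {E : Type} [NormedAddCommGroup E] [NormedSpace ℝ E] [FiniteDimensional ℝ E]
  [MeasurableSpace E] [BorelSpace E]
  {HM : Type} [TopologicalSpace HM] {I : ModelWithCorners ℝ E HM} [I.Boundaryless]
  {M : Type} [TopologicalSpace M] [ChartedSpace HM M] [IsManifold I ∞ M]
  [MeasurableSpace M] [BorelSpace M] [SecondCountableTopology M] {ι : Type} [Fintype ι]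
  {lam : Type} [Fintype lam] {m : Md M ι lam} {B : Base M ι lam} {x : M} {k : Cut M lam}
  {F : Fr I M ι} {T : En (Fin m.N)} {ξ : m.A}

theorem c2_comm (hT : ∀ a, T * m.ρ a x = m.ρ a x * T) (w : Eu (ι × ι)) :
    T * m.c2 x w = m.c2 x w * T := by
  simp only [Md.c2, Finset.mul_sum, Finset.sum_mul, mul_smul_comm, smul_mul_assoc, mul_assoc, hT,
    mu' (hT _)]

theorem pi_comm (hp : T * m.p x = m.p x * T) (hJ : T * m.J = m.J * T)
    (hT : ∀ a, T * m.ρ a x = m.ρ a x * T) : T * k.pi B F m x = k.pi B F m x * T := by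
  simp only [Cut.pi, mul_sub, sub_mul, mul_smul_comm, smul_mul_assoc, mul_assoc, pp_comm hp hT,
    mu' hJ, c2_comm hT]

theorem q0_comm (hp : T * m.p x = m.p x * T) (hJ : T * m.J = m.J * T)
    (hT : ∀ a, T * m.ρ a x = m.ρ a x * T) (hj : ∀ s, T * m.j x s = m.j x s * T) :
    T * k.q0 B F m x = k.q0 B F m x * T := by
  refine ((Commute.mul_right (pi_comm hp hJ hT) ?_).mul_right (pi_comm hp hJ hT)).eq
  refine Commute.list_sum_right _ _ fun y hy => ?_
  obtain ⟨t, -, rfl⟩ := List.mem_map.1 hy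
  exact Commute.mul_right (c2_comm hT _) (hj _)

variable (hB : B.OK I) (H : m.OK I B)
include H

theorem g_pi (h : ξ ∈ m.gS x) : opL ξ * k.pi B F m x = k.pi B F m x * opL ξ :=
  pi_comm (by rw [g_p' H h, g_p h]) (g_J h).symm fun a => (g_ρ h a).symm

theorem g_qu (h : ξ ∈ m.gS x) : opL ξ * k.qu B F m x = k.qu B F m x * opL ξ := by
  rw [Cut.qu, mul_smul_comm, smul_mul_assoc, q0_comm (by rw [g_p' H h, g_p h]) (g_J h).symm
    (fun a => (g_ρ h a).symm) fun s => (g_j h s).symm]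

theorem J_pi : m.J * k.pi B F m x = k.pi B F m x * m.J := pi_comm (H.Jp x) rfl fun a => H.Jρ a x

include hB

theorem cp_pp (x : M) : CP m.J (m.pp B x) :=
  ⟨⟨H.Jsq, H.Jsk⟩, pp_sym hB H x, pp_pp hB H x, J_pp H x⟩

theorem tr_pp (x : M) : trE (m.pp B x) = 8 := by
  obtain ⟨U, h⟩ := b_on hB x
  have D := h.cl4 (H.cl x)
  have : trE (m.om B x) = 0 := tr_zero (K := rr U (fun a => m.ρ a x) 0) (c := -1) (by simp)
    (by simp only [rr, Finset.sum_mul, Finset.mul_sum, smul_mul_assoc, mul_smul_comm, om_rho hB H,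
      smul_neg, Finset.sum_neg_distrib, neg_neg])
    (by rw [D.sq, mul_neg, om_p H, neg_smul, one_smul])
  rw [Md.pp, map_smul, map_sub, this, trE_eq, H.prk]; norm_num

theorem c2_skw (w : ι → ι → ℝ) : trn (m.c2 x (sdT B x w)) = -m.c2 x (sdT B x w) := by
  simp only [Cut54.c2_alt hB H, map_sum, map_smul, Skw.trn (rp_skw hB H _), smul_neg,
    Finset.sum_neg_distrib]

theorem exists_lc (ho : k.om B F x ≠ 0) : ∃ X C K n, Lc (m.pp B x) m.J X C K n ∧ trn X = -X ∧
    trn K = K ∧ k.pi B F m x = (1 / 2 : ℝ) • (m.pp B x - m.J * X) ∧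
    k.q0 B F m x = (1 / 2 : ℝ) • (C * K * k.pi B F m x) := by
  obtain ⟨U, h⟩ := b_on hB x
  obtain ⟨t, h1, h2, h3⟩ := line_eq hB x
  have Q := Cut54.qt_md h H t
  have hc := Cut54.c2_sdT h H
  have hn := Cut54.norm_sdT h
  have hs := c2_skw hB H (x := x)
  generalize i1 (rr U fun a => m.ρ a x) = i at Q hc
  generalize i2 (rr U fun a => m.ρ a x) = j at Q hc
  generalize i3 (rr U fun a => m.ρ a x) = l at Q hc
  obtain ⟨a1, a2, a3, b1, b2, b3, hT⟩ : ∃ a1 a2 a3 b1 b2 b3 : ℝ,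
      (k.e.map fun t => m.c2 x (B.dd F t.2.1 t.2.2 x) * m.j x (t.1 x)).sum =
      (a1 • i + a2 • j + a3 • l) * m.j x t + (b1 • i + b2 • j + b3 • l) * (m.J * m.j x t) := by
    induction k.e with
    | nil => exact ⟨0, 0, 0, 0, 0, 0, by simp⟩
    | cons s L ih =>
      obtain ⟨a1, a2, a3, b1, b2, b3, ih⟩ := ih
      rw [List.map_cons, List.sum_cons, ih, ← H.jl x (s.1 x), h3, map_add, map_smul, map_smul, H.jil,
        show B.dd F s.2.1 s.2.2 x = sdT B x fun a b => F.D a s.2.1 x * F.D b s.2.2 x from rfl, hc]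
      generalize v1 _ _ = w1
      generalize v2 _ _ = w2
      generalize v3 _ _ = w3
      generalize ⟪t, s.1 x⟫_ℝ = α
      generalize ⟪B.il t, s.1 x⟫_ℝ = β
      refine ⟨α * w1 + a1, α * w2 + a2, α * w3 + a3, β * w1 + b1, β * w2 + b2, β * w3 + b3, ?_⟩
      simp only [mul_add, add_mul, smul_mul_assoc, mul_smul_comm]
      module
  have hp : 0 < 2 * ‖k.om B F x‖ := mul_pos two_pos (norm_pos_iff.2 ho)
  rw [Cut.q0, hT, Cut.pi]
  rw [Cut54.om_eq] at hp ⊢
  generalize (fun a b => (k.w.map fun t => t.1 x * (F.D a t.2.1 x * F.D b t.2.2 x)).sum) = w at *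
  specialize hn w
  specialize hs w
  rw [hc] at hs ⊢
  generalize 2 * ‖sdT B x w‖ = n at *
  have hu : n⁻¹ * v1 1 (cW U w) * (n⁻¹ * v1 1 (cW U w)) + n⁻¹ * v2 1 (cW U w) * (n⁻¹ * v2 1 (cW U w)) +
      n⁻¹ * v3 1 (cW U w) * (n⁻¹ * v3 1 (cW U w)) = 1 := by field_simp; linarith
  obtain ⟨c1, c2, c3, h4, h5⟩ := key2 Q hu a1 a2 a3 b1 b2 b3
  refine ⟨_, _, _, _, lc_of Q (by rw [H.jsq, h2, h1, one_pow, one_smul, pp_p H]) hu h4, ?_,
    Sym.trn (H.jsym x t), ?_, ?_⟩
  · simp only [mul_smul, ← smul_add, map_smul, hs, smul_neg]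
  · simp only [mul_smul, ← smul_add, mul_smul_comm]
  · simp only [mul_smul, ← smul_add, mul_smul_comm] at h5
    simp only [mul_smul_comm, smul_mul_assoc, h5]

variable (ho : k.om B F x ≠ 0)
include ho

theorem sub_pi : Sub m.J (m.pp B x) (k.pi B F m x) := by
  obtain ⟨X, C, K, n, h, hX, -, e, -⟩ := exists_lc hB H ho
  refine ⟨cp_pp hB H x, ⟨⟨H.Jsq, H.Jsk⟩, sym_of ?_, h.pp e, J_pi H⟩, h.ep e⟩
  rw [e, trn_smul, trn_sub, trn_mul, hX, Skw.trn H.Jsk, Sym.trn (pp_sym hB H x), neg_mul_neg, h.XJ]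

theorem tr_pi : trE (k.pi B F m x) = 4 := by
  obtain ⟨X, C, K, n, h, -, -, e, -⟩ := exists_lc hB H ho
  have : trE (m.J * X) = 0 := tr_zero (K := K) one_ne_zero
    (by rw [mu' h.kJ, neg_mul, mul_assoc, mul_assoc, h.kX])
    (by rw [one_smul, mul_assoc, ← h.Xe, mul_assoc, h.kk])
  rw [e, map_smul, map_sub, this, tr_pp hB H]; norm_num

theorem rk_pi : rk (k.pi B F m x) = 4 :=
  rk_of (sub_pi hB H ho).hq.idem (by rw [tr_pi hB H ho]; norm_num)

theorem p_pi : m.p x * k.pi B F m x = k.pi B F m x := by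
  rw [← (sub_pi hB H ho).pq, ← mul_assoc, p_pp H]

/-- `U = ℝ v ⊕ g v` -/
theorem exists_g {v w : m.V} (hv : k.pi B F m x v = v) (h0 : v ≠ 0) (hw : k.pi B F m x w = w) :
    ∃ r : ℝ, ∃ ξ ∈ m.gS x, w = r • v + opL ξ v := by
  let L : (ℝ × m.gS x) →ₗ[ℝ] En (Fin m.N) := (LinearMap.fst ℝ _ _).smulRight (m.p x) +
    (opL : CL m.A _).toLinearMap ∘ₗ (m.gS x).subtype ∘ₗ LinearMap.snd ℝ _ _
  have eL : ∀ y, L y = y.1 • m.p x + opL y.2.1 := fun _ => rfl
  have pv : m.p x v = v := by rw [← hv, ← mul_apply_eq_comp, p_pi hB H ho]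
  obtain ⟨y, hy⟩ := trans4 (by simp [rk_pi hB H ho, Std94.finrank_g hB (Std94.pmx H x)]) L (v := v)
    (fun y => by
      rw [eL, add_apply, smul_apply, pv, map_add, map_smul, hv, ← mul_apply_eq_comp,
        ← g_pi H y.2.2, mul_apply_eq_comp, hv]) (fun ⟨r, ξ, hξ⟩ hy => by
      have e := app (Std94.comm_norm hB (Std94.pmx H x) r hξ).1 v
      rw [mul_apply_eq_comp, ← eL (r, ⟨ξ, hξ⟩), hy, map_zero, smul_apply, pv, eq_comm,
        smul_eq_zero_iff_left h0] at e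
      refine Prod.ext (show r = 0 by nlinarith [sq_nonneg r, sq_nonneg ‖ξ‖])
        (Subtype.ext (norm_eq_zero.1 (show ‖ξ‖ = 0 by nlinarith [sq_nonneg r, sq_nonneg ‖ξ‖])))) hw
  exact ⟨y.1, _, y.2.2, by rw [← hy, eL, add_apply, smul_apply, pv]⟩

variable (hq : k.q0 B F m x ≠ 0)
include hq

/-- **The quaternionic structure of `U`** -/
theorem qt_qu : Qt m.J (m.pp B x) (k.pi B F m x) (k.qu B F m x) := by
  have S := sub_pi hB H ho
  obtain ⟨X, C, K, n, h, hX, hK, e, e'⟩ := exists_lc hB H ho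
  have sk : trn (k.q0 B F m x) = -k.q0 B F m x := by
    have : trn (k.e.map fun t => m.c2 x (B.dd F t.2.1 t.2.2 x) * m.j x (t.1 x)).sum =
        -(k.e.map fun t => m.c2 x (B.dd F t.2.1 t.2.2 x) * m.j x (t.1 x)).sum := by
      induction k.e with
      | nil => simp
      | cons s L ih =>
        rw [List.map_cons, List.sum_cons, trn_add, ih, trn_mul, Sym.trn (H.jsym _ _), neg_add,
          ← c2_comm fun a => H.jρ a x _, show B.dd F s.2.1 s.2.2 x = sdT B x fun a b =>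
            F.D a s.2.1 x * F.D b s.2.2 x from rfl, c2_skw hB H, mul_neg]
    rw [Cut.q0, trn_mul, trn_mul, this, Sym.trn S.hq.sym, neg_mul, mul_neg, mul_assoc]
  have qq : k.q0 B F m x * k.q0 B F m x = -((n / 4) • k.pi B F m x) := by
    rw [e', smul_mul_assoc, mul_smul_comm, h.qq e]; module
  have nn : ‖hsL (k.q0 B F m x)‖ ^ 2 = n := by
    rw [← real_inner_self_eq_norm_sq, inner_trn, sk, neg_mul, qq, neg_neg, map_smul, tr_pi hB H ho]
    simp
  have n0 : ‖hsL (k.q0 B F m x)‖ ≠ 0 := norm_ne_zero_iff.2 fun h0 => hq (by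
    rw [← opL_hsL (k.q0 B F m x), h0, map_zero])
  refine ⟨S, ?_, ?_, skw_of ?_, ?_⟩ <;> rw [Cut.qu]
  · rw [e', mul_smul_comm, mul_smul_comm, h.Jq e, smul_mul_assoc, smul_mul_assoc, smul_neg, smul_neg]
  · rw [smul_mul_assoc, mul_smul_comm, qq, ← nn]
    match_scalars
    field_simp; norm_num
  · rw [trn_smul, sk, smul_neg]
  · rw [e', mul_smul_comm, mul_smul_comm, h.pq e]

/-- a skew operator commuting with `J, π, qu, g` vanishes on `U` -/
theorem zero_on_U (hN : Skw T) (hJ : m.J * T = T * m.J) (hπ : k.pi B F m x * T = T * k.pi B F m x)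
    (hC : k.qu B F m x * T = T * k.qu B F m x) (hg : ∀ ξ ∈ m.gS x, T * opL ξ = opL ξ * T) :
    T * k.pi B F m x = 0 :=
  (qt_qu hB H ho hq).comm_zero (rk_pi hB H ho) (S := opL '' m.gS x)
    (by rintro _ ⟨ξ, h, rfl⟩; exact ⟨g_J h, (g_qu H h).symm, hg ξ h⟩)
    (fun _ _ hv h0 hw =>
      let ⟨r, ξ, h, e⟩ := exists_g hB H ho hv h0 hw
      ⟨r, _, ⟨ξ, h, rfl⟩, e⟩) hN hJ hC hπ

end Crest.Agent.X212.Hol14
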