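import Crest.Agent.X212.Hol14.Index

/-!
# Row 212, Toeplitz cut: constant operators on Hardy spaces, the complex structure, splitting
-/

set_option autoImplicit false
set_option linter.unusedSectionVars false
noncomputable section
open scoped Topology InnerProductSpace ENNReal
open MeasureTheory Set Function Filter Module

namespace Crest.Agent.X212.Hol14
open An Wz78
open Fred93 (Fr)

variable {κ κ' : Type} [Fintype κ] [DecidableEq κ] [Fintype κ'] [DecidableEq κ']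
  {J p q C T : En κ} {J' p' : En κ'} {u : CL (Eu κ) (Eu κ')}

/-- constant operators between two fibres -/
abbrev cL (u : CL (Eu κ) (Eu κ')) : CL (L2c κ) (L2c κ') := u.compLpL 2 μc

theorem cL_mulC {g : Sy κ} {g' : Sy κ'} (e : ∀ θ, u ∘L g θ = g' θ ∘L u) (f : L2c κ) :
    cL u (mulC g f) = mulC g' (cL u f) := Lp.ext <| by
  filter_upwards [mulC_const u (mulC g f), mulC_ae g f, mulC_ae g' (cL u f), mulC_const u f]
    with θ a b c d
  rw [a, b, c, d]
  exact congrArg (fun T : CL (Eu κ) (Eu κ') => T (f θ)) (e θ)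

theorem cL_cL {κ'' : Type} [Fintype κ''] (w : CL (Eu κ') (Eu κ'')) (u : CL (Eu κ) (Eu κ'))
    (f : L2c κ) : cL w (cL u f) = cL (w ∘L u) f := Lp.ext <| by
  filter_upwards [mulC_const w (cL u f), mulC_const u f, mulC_const (w ∘L u) f] with θ a b c
  rw [a, b, c]; rfl

theorem inner_cL (f : L2c κ) (h : L2c κ') : ⟪cL u f, h⟫_ℝ = ⟪f, cL (trn u) h⟫_ℝ := by
  rw [L2.inner_def, L2.inner_def]
  refine integral_congr_ae ?_
  filter_upwards [mulC_const u f, mulC_const (trn u) h] with θ h1 h2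
  rw [h1, h2, ContinuousLinearMap.adjoint_inner_right]

theorem csE_int (h : u ∘L J = J' ∘L u) (c : ℂ) : u ∘L csE J c = csE J' c ∘L u := by
  simp only [csE, ContinuousLinearMap.comp_add, ContinuousLinearMap.add_comp,
    ContinuousLinearMap.comp_smul, ContinuousLinearMap.smul_comp, h]
  rfl

theorem cL_md (h : u ∘L J = J' ∘L u) (n : ℤ) (v : Eu κ) : cL u (md J n v) = md J' n (u v) := by
  rw [md_eq, md_eq, cL_mulC (g' := eS J' n) fun _ => csE_int h _]
  refine congrArg _ (Lp.ext ?_)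
  filter_upwards [mulC_const u (kL v), kL_ae v, kL_ae (u v)] with θ a b c
  rw [a, b, c]

theorem trn_int (hJ : Skw J) (hJ' : Skw J') (h : u ∘L J = J' ∘L u) : trn u ∘L J' = J ∘L trn u := by
  have := congrArg trn h
  rw [trn, trn, ContinuousLinearMap.adjoint_comp, ContinuousLinearMap.adjoint_comp,
    show ContinuousLinearMap.adjoint J = _ from Skw.trn hJ,
    show ContinuousLinearMap.adjoint J' = _ from Skw.trn hJ', ContinuousLinearMap.neg_comp,
    ContinuousLinearMap.comp_neg, neg_inj] at this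
  exact this.symm

theorem fc_cL (hJ : Skw J) (hJ' : Skw J') (h : u ∘L J = J' ∘L u) (n : ℤ) (f : L2c κ) :
    fc J' n (cL u f) = u (fc J n f) := ext_inner_left ℝ fun v => by
  rw [inner_fc, real_inner_comm, inner_cL, cL_md (trn_int hJ hJ' h), real_inner_comm, ← inner_fc,
    ContinuousLinearMap.adjoint_inner_left]

/-- intertwiners of the pairs `(J, p)` -/
structure It (J p : En κ) (J' p' : En κ') (u : CL (Eu κ) (Eu κ')) : Prop where
  h : CP J p
  h' : CP J' p'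
  J : u ∘L J = J' ∘L u
  p : u ∘L p = p' ∘L u

namespace It
variable (i : It J p J' p' u)
include i

theorem fc (n : ℤ) (f : L2c κ) : fc J' n (cL u f) = u (fc J n f) := fc_cL i.h.sk i.h'.sk i.J n f

theorem PH (f : L2c κ) : PH J' p' (cL u f) = cL u (PH J p f) := ext_fc i.h'.toCJ fun n => by
  rw [fc_PH i.h', i.fc, i.fc, fc_PH i.h]
  split_ifs
  · exact (congrArg (fun T : CL (Eu κ) (Eu κ') => T _) i.p).symm
  · exact (map_zero u).symm

theorem mem (ψ : Hd J p) : cL u ψ ∈ Hd J' p' :=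
  Submodule.starProjection_eq_self_iff.1 (by
    change Hol14.PH J' p' _ = _
    rw [i.PH, PH_coe])

end It

/-- the operator between Hardy spaces induced by `u` -/
def rH (J p : En κ) (J' p' : En κ') (u : CL (Eu κ) (Eu κ')) : CL (Hd J p) (Hd J' p') :=
  (Hd J' p').orthogonalProjectionOnto ∘L cL u ∘L (Hd J p).subtypeL

theorem It.rH_coe (i : It J p J' p' u) (ψ : Hd J p) : (rH J p J' p' u ψ : L2c κ') = cL u ψ :=
  PH_coe ⟨_, i.mem ψ⟩

theorem rH_eq (T : En κ) : rH J p J p T = tpzL J p (cS T) :=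
  ContinuousLinearMap.ext fun ψ => Subtype.ext (by rw [tpzL_coe, mulC_cS]; rfl)

theorem It.rH_tpzL (i : It J p J' p' u) {g : Sy κ} {g' : Sy κ'}
    (e : ∀ θ, u ∘L g θ = g' θ ∘L u) (ψ : Hd J p) :
    rH J p J' p' u (tpzL J p g ψ) = tpzL J' p' g' (rH J p J' p' u ψ) := Subtype.ext <| by
  rw [i.rH_coe, tpzL_coe, tpzL_coe, i.rH_coe, ← cL_mulC e, i.PH]

theorem It.rH_frk (i : It J p J' p' u) {Ξ : En κ} {Ξ' : En κ'} (e : u ∘L Ξ = Ξ' ∘L u) (m n : ℕ)
    (ψ : Hd J p) : rH J p J' p' u (frk J p m n Ξ ψ) = frk J' p' m n Ξ' (rH J p J' p' u ψ) :=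
  Subtype.ext <| by
    rw [i.rH_coe, frk_coe, frk_coe, i.rH_coe, i.fc, ← i.PH, cL_md i.J]
    exact congrArg (fun v => Hol14.PH J' p' (md J' m v))
      (congrArg (fun T : CL (Eu κ) (Eu κ') => T _) e)

theorem It.rH_rH {κ'' : Type} [Fintype κ''] [DecidableEq κ''] {J'' p'' : En κ''}
    {w : CL (Eu κ') (Eu κ'')} (i : It J p J' p' u) (ψ : Hd J p) :
    rH J' p' J'' p'' w (rH J p J' p' u ψ) = rH J p J'' p'' (w ∘L u) ψ := Subtype.ext <| by
  change Hol14.PH J'' p'' (cL w (rH J p J' p' u ψ)) = Hol14.PH J'' p'' (cL (w ∘L u) ψ)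
  rw [i.rH_coe, cL_cL]

theorem rH_p (h : CP J p) (e : T * p = p) (ψ : Hd J p) : rH J p J p T ψ = ψ := by
  rw [rH_eq, tpzL_p h fun _ => e]

theorem inner_rH (ψ : Hd J p) (χ : Hd J' p') :
    ⟪rH J p J' p' u ψ, χ⟫_ℝ = ⟪ψ, rH J' p' J p (trn u) χ⟫_ℝ := by
  rw [Submodule.coe_inner, Submodule.coe_inner]
  change ⟪PH J' p' (cL u ψ), _⟫_ℝ = ⟪_, PH J p (cL (trn u) χ)⟫_ℝ
  rw [Submodule.inner_starProjection_left_eq_right,
    ← Submodule.inner_starProjection_left_eq_right _ ψ.1, PH_coe, PH_coe, inner_cL]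

theorem It.norm_rH (i : It J p J' p' u) (e : (trn u ∘L u) * p = p) (ψ : Hd J p) :
    ‖rH J p J' p' u ψ‖ = ‖ψ‖ := by
  have := inner_rH (u := u) ψ (rH J p J' p' u ψ)
  rw [i.rH_rH, rH_p i.h e, real_inner_self_eq_norm_sq, real_inner_self_eq_norm_sq] at this
  exact (pow_left_inj₀ (norm_nonneg _) (norm_nonneg _) two_ne_zero).1 this

/-- `rH` as a linear map of `u` -/
def rHL (J p : En κ) : CL (En κ) (CL (Hd J p) (Hd J p)) := LinearMap.toContinuousLinearMap
  { toFun := rH J p J p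
    map_add' := fun S T => by
      rw [rH_eq, rH_eq, rH_eq, ← map_add]; rfl
    map_smul' := fun r T => by
      rw [rH_eq, rH_eq, RingHom.id_apply, ← map_smul]; rfl }

theorem rHL_apply (T : En κ) : rHL J p T = rH J p J p T := rfl

theorem CP.it (h : CP J p) (hJ : J * T = T * J) (hp : p * T = T * p) : It J p J p T :=
  ⟨h, h, hJ.symm, hp.symm⟩

/-- the complex structure of the Hardy space -/
def JH (J p : En κ) : CL (Hd J p) (Hd J p) := rH J p J p J

theorem CP.itJ (h : CP J p) : It J p J p J := h.it rfl h.comm.symm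

theorem JH_coe (h : CP J p) (ψ : Hd J p) : (JH J p ψ : L2c κ) = cL J ψ := h.itJ.rH_coe ψ

theorem JH_JH (h : CP J p) (ψ : Hd J p) : JH J p (JH J p ψ) = -ψ := by
  rw [JH, h.itJ.rH_rH, show J ∘L J = -1 from h.sq, ← rHL_apply, map_neg, neg_apply, rHL_apply,
    rH_p h (one_mul p)]

theorem JH_skew (h : CP J p) (ψ χ : Hd J p) : ⟪JH J p ψ, χ⟫_ℝ = -⟪ψ, JH J p χ⟫_ℝ := by
  rw [JH, inner_rH, Skw.trn h.sk, ← rHL_apply, map_neg, neg_apply, inner_neg_right, rHL_apply]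

theorem JH_tpzL (h : CP J p) {g : Sy κ} (e : ∀ θ, J * g θ = g θ * J) (ψ : Hd J p) :
    JH J p (tpzL J p g ψ) = tpzL J p g (JH J p ψ) := h.itJ.rH_tpzL e ψ

theorem JH_frk (h : CP J p) {Ξ : En κ} (e : J * Ξ = Ξ * J) (m n : ℕ) (ψ : Hd J p) :
    JH J p (frk J p m n Ξ ψ) = frk J p m n Ξ (JH J p ψ) := h.itJ.rH_frk e m n ψ

theorem It.rH_JH (i : It J p J' p' u) (ψ : Hd J p) :
    rH J p J' p' u (JH J p ψ) = JH J' p' (rH J p J' p' u ψ) := by
  rw [JH, JH, i.h.itJ.rH_rH, i.rH_rH, i.J]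

theorem rH_csE (h : CP J p) (c : ℂ) (ψ : Hd J p) :
    rH J p J p (csE J c) ψ = c.re • ψ + c.im • JH J p ψ := by
  rw [← rHL_apply, csE, map_add, map_smul, map_smul, add_apply, smul_apply, smul_apply, rHL_apply,
    rH_p h (one_mul p)]
  rfl

/-! ### subprojectors -/

theorem Sub.le (h : Sub J p q) : Hd J q ≤ Hd J p := fun f hf => by
  obtain ⟨a, b⟩ := (mem_Hd h.hq).1 hf
  exact (mem_Hd h.hp).2 ⟨a, fun n => by rw [← b n]; exact app h.pq _⟩

theorem Sub.it (h : Sub J p q) : It J p J q q :=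
  ⟨h.hp, h.hq, h.hq.comm.symm, h.qp.trans h.hq.idem.symm⟩

theorem Sub.it' (h : Sub J p q) : It J q J p q :=
  ⟨h.hq, h.hp, h.hq.comm.symm, h.hq.idem.trans h.pq.symm⟩

theorem Sub.it'' (h : Sub J p q) : It J p J p q :=
  ⟨h.hp, h.hp, h.hq.comm.symm, h.qp.trans h.pq.symm⟩

/-- the inclusion of Hardy spaces is `rH J q J p q` -/
theorem Sub.incl_coe (h : Sub J p q) (ψ : Hd J q) : (rH J q J p q ψ : L2c κ) = ψ := by
  rw [h.it'.rH_coe, ← mulC_cS, cS_coe h.hq]

theorem Sub.proj_incl (h : Sub J p q) (ψ : Hd J q) : rH J p J q q (rH J q J p q ψ) = ψ := by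
  rw [h.it'.rH_rH, rH_p h.hq (by rw [show q ∘L q = q from h.hq.idem, h.hq.idem])]

theorem isClosed_sp : IsClosed {g : Sy κ | Sp J p q C g} := by
  have e : {g : Sy κ | Sp J p q C g} = ⋂ θ, (fun g : Sy κ => g θ) ⁻¹' {T | ((J * T = T * J ∧
      p * T = T * p) ∧ trn T * T * p = p ∧ T * trn T * p = p) ∧ q * T = T * q ∧ C * T = T * C ∧
      T * (p - q) = p - q} := by
    ext g
    simp only [mem_iInter, mem_preimage, mem_ofPred_eq]
    exact ⟨fun h θ => ⟨⟨h.cm θ, h.l θ, h.r θ⟩, h.hq θ, h.hC θ, h.fix θ⟩, fun h =>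
      ⟨⟨fun θ => (h θ).1.1, fun θ => (h θ).1.2.1, fun θ => (h θ).1.2.2⟩, fun θ => (h θ).2.1,
        fun θ => (h θ).2.2.1, fun θ => (h θ).2.2.2⟩⟩
  have ht : Continuous (trn : En κ → En κ) := ContinuousLinearMap.adjoint.continuous
  rw [e]
  refine isClosed_iInter fun θ => IsClosed.preimage (continuous_eval_const θ) ?_
  refine (((isClosed_eq ?_ ?_).inter (isClosed_eq ?_ ?_)).inter ((isClosed_eq ?_ ?_).inter
    (isClosed_eq ?_ ?_))).inter ((isClosed_eq ?_ ?_).inter ((isClosed_eq ?_ ?_).inter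
    (isClosed_eq ?_ ?_))) <;> fun_prop

end Crest.Agent.X212.Hol14
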